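import Vale.Agent.P073.GB371.Cut
import Vale.Agent.P073.PR.HemiN
import Vale.Agent.P073.H339.Arcs2
import Vale.Agent.P073.SCH.Schoenflies

/-!
# P073, GB371: glueing two conical balls along their boundary; `GlueSph n`; two points on a conical
circle (`JordanSch 1`); ambient Schoenflies in the plane in the form `AmbSch 1`
-/

open Set Metric Topology Filter

namespace P073

variable {E F : Type*} [NormedAddCommGroup E] [NormedSpace ℝ E]
  [NormedAddCommGroup F] [NormedSpace ℝ F]

/-- extension of a conical homeomorphism `C → C'` over two balls glued along `C` -/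
theorem exists_glue_balls {n : ℕ} {A B C : Set E} {A' B' C' : Set F} (hA : ConBall n A C)
    (hB : ConBall n B C) (hAB : A ∩ B = C) (hA' : ConBall n A' C') (hB' : ConBall n B' C')
    (hAB' : A' ∩ B' = C') (φ : ConHomeo C C') :
    ∃ Φ : ConHomeo (A ∪ B) (A' ∪ B'), EqOn Φ.toFun φ.toFun C ∧ Φ.toFun '' A = A' ∧
      Φ.toFun '' B = B' := by
  obtain ⟨α, hα, -⟩ := hA.exists_extend hA' φ
  obtain ⟨β, hβ, -⟩ := hB.exists_extend hB' φ
  have hag : EqOn α.toFun β.toFun (A ∩ B) := by
    rw [hAB]; exact fun x hx => (hα hx).trans (hβ hx).symm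
  have himg : A' ∩ B' ⊆ α.toFun '' (A ∩ B) := by
    rw [hAB', hAB, hα.image_eq, φ.image_eq]
  have hl := ConHomeo.glue_left α β hA.isClosed hB.isClosed hA'.isClosed hB'.isClosed hag himg
  have hr := ConHomeo.glue_right α β hA.isClosed hB.isClosed hA'.isClosed hB'.isClosed hag himg
  refine ⟨ConHomeo.glue α β hA.isClosed hB.isClosed hA'.isClosed hB'.isClosed hag himg,
    (hl.mono hA.1).trans hα, ?_, ?_⟩
  · rw [hl.image_eq, α.image_eq]
  · rw [hr.image_eq, β.image_eq]

/-- two conical balls of the same positive dimension with the same boundary and no other common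
point form a conical sphere -/
theorem glueSph_aux {n : ℕ} (hn : n ≠ 0) {A B C : Set E} (hA : ConBall n A C)
    (hB : ConBall n B C) (hAB : A ∩ B = C) : ConSphere n (A ∪ B) := by
  obtain ⟨m, rfl⟩ := Nat.exists_eq_succ_of_ne_zero hn
  obtain ⟨α⟩ := hA.conSphere
  obtain ⟨β⟩ := (conBall_eqDisc (n := m + 1) hn).conSphere
  obtain ⟨Φ, -, -, -⟩ := exists_glue_balls hA hB hAB (conBall_hemiU hn) (conBall_hemiD hn)
    (hemiU_inter_hemiD (m + 1)) (α.trans β.symm)
  exact ⟨Φ.cast rfl (hemiU_union_hemiD (m + 1))⟩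

theorem glueSph {n : ℕ} (hn : n ≠ 0) : GlueSph n :=
  fun _ _ _ hA hB hAB => glueSph_aux hn hA hB hAB

/-- a conical zero-sphere is a pair of points -/
theorem ConSphere.exists_pair {S : Set E} (h : ConSphere 0 S) : ∃ p q, p ≠ q ∧ S = {p, q} := by
  obtain ⟨φ⟩ := h
  have hs : sphere (0 : Fin (0 + 1) → ℝ) 1 = {(fun _ => -1), (fun _ => 1)} := sphere_fin_one
  have h1 : (φ.cast rfl hs).invFun '' {(fun _ => -1), (fun _ => 1)} = S :=
    (φ.cast rfl hs).symm.image_eq
  rw [image_pair] at h1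
  refine ⟨_, _, ?_, h1.symm⟩
  intro h2
  have := (φ.cast rfl hs).symm.injOn (Or.inl rfl) (Or.inr rfl) h2
  have h3 := congrFun this 0
  norm_num at h3

theorem conSphere_pair {p q : E} (h : p ≠ q) : ConSphere 0 ({p, q} : Set E) := by
  have h1 : ConBall 1 (segment ℝ p q) {p, q} :=
    H339.isArc_iff_conBall.1 (isArc_segment h)
  exact h1.conSphere

/-- two points cut a conical circle into two arcs -/
theorem jordanSch_one {S : Set E} (hS : ConSphere 1 S) : JordanSch 1 S := by
  intro γ hγ h0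
  obtain ⟨p, q, hpq, rfl⟩ := ConSphere.exists_pair h0
  have hp : p ∈ S := hγ (Or.inl rfl)
  have hq : q ∈ S := hγ (Or.inr rfl)
  obtain ⟨A, B, hA, hB, hAB, rfl⟩ := 
    H339.IsCircle.arcs_through (H339.conSphere_iff.1 hS) hp hq hpq
  have cA := H339.isArc_iff_conBall.1 hA
  have cB := H339.isArc_iff_conBall.1 hB
  have eA : A \ {p, q} ∪ {p, q} = A := sdiff_union_of_subset cA.1
  have eB : B \ {p, q} ∪ {p, q} = B := sdiff_union_of_subset cB.1
  refine ⟨A \ {p, q}, B \ {p, q}, ?_, ?_, cA.nonempty_diff, cB.nonempty_diff, ?_, ?_⟩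
  · rw [Set.disjoint_left]
    rintro x ⟨h1, h2⟩ ⟨h3, _⟩
    exact h2 (hAB ⟨h1, h3⟩)
  · rw [union_sdiff_distrib]
  · rw [eA]; exact cA
  · rw [eB]; exact cB

/-- ambient Schoenflies in the plane -/
theorem ambSch_one : AmbSch 1 := by
  intro S hS
  obtain ⟨φ⟩ := H339.conSphere_iff.1 hS
  -- transport to `ℝ × ℝ`
  have hsub : S ⊆ univ := subset_univ _
  let P := H339.pairHomeo
  have hcon : ConicalSet S := φ.conicalSet_right
  let ψ : ConHomeo (sphere (0 : ℝ × ℝ) 1) (P.invFun '' S) :=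
    φ.trans (P.symm.restr hcon hsub)
  obtain ⟨Φ, hΦ⟩ := SCH.schoenflies_extend ψ
  refine ⟨P.symm.trans (Φ.trans P), ?_⟩
  have h1 : P.invFun '' sphere (0 : Fin 2 → ℝ) 1 = sphere 0 1 := by
    rw [← H339.pairHomeo_image_sphere, image_image]
    have : ∀ x ∈ sphere (0 : ℝ × ℝ) 1, P.invFun (P.toFun x) = x :=
      fun x _ => P.left_inv (mem_univ x)
    rw [image_congr this, image_id']
  show (fun x => P.toFun (Φ.toFun (P.invFun x))) '' sphere (0 : Fin (1 + 1) → ℝ) 1 = S
  have h2 : (fun x => P.toFun (Φ.toFun (P.invFun x))) '' sphere (0 : Fin (1 + 1) → ℝ) 1 =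
      P.toFun '' (Φ.toFun '' (P.invFun '' sphere (0 : Fin 2 → ℝ) 1)) := by
    rw [image_image, image_image]
  rw [h2, h1, hΦ.image_eq, ψ.image_eq, image_image]
  have : ∀ x ∈ S, P.toFun (P.invFun x) = x := fun x _ => P.right_inv (mem_univ x)
  rw [image_congr this, image_id']

end P073
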