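import Vale.Agent.P073.GB371.Straight
import Vale.Agent.P073.PR.Faces

/-!
# P073, GB371: clipped cubes and squares placed in the space
-/

open Set Metric Topology Filter

namespace P073

/-- coordinatewise affine map -/
noncomputable def diagMap {m : ℕ} (c d : Fin m → ℝ) : (Fin m → ℝ) →ᵃ[ℝ] (Fin m → ℝ) where
  toFun v k := c k + d k * v k
  linear :=
    { toFun := fun v k => d k * v k
      map_add' := fun v w => by funext i; simp [mul_add]
      map_smul' := fun c v => by funext i; simp; ring }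
  map_vadd' := fun v w => by funext i; simp; ring

theorem diagMap_apply {m : ℕ} (c d v : Fin m → ℝ) (k : Fin m) :
    diagMap c d v k = c k + d k * v k := rfl

theorem diagMap_injective {m : ℕ} {c d : Fin m → ℝ} (hd : ∀ k, d k ≠ 0) :
    Function.Injective (diagMap c d) := by
  intro v w h
  funext i
  have h1 := congrFun h i
  rw [diagMap_apply, diagMap_apply] at h1
  exact mul_left_cancel₀ (hd i) (add_left_cancel h1)

theorem continuous_diagMap {m : ℕ} (c d : Fin m → ℝ) : Continuous (diagMap c d) := by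
  refine continuous_pi fun k => ?_
  show Continuous fun v : Fin m → ℝ => c k + d k * v k
  fun_prop

/-- image of a set under the coordinatewise affine map -/
theorem diagMap_image {m : ℕ} {c d : Fin m → ℝ} (hd : ∀ k, d k ≠ 0) (X : Set (Fin m → ℝ)) :
    diagMap c d '' X = {y | (fun k => (y k - c k) / d k) ∈ X} := by
  ext y
  constructor
  · rintro ⟨x, hx, rfl⟩
    show (fun k => (diagMap c d x k - c k) / d k) ∈ X
    have : (fun k => (diagMap c d x k - c k) / d k) = x := by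
      funext k
      rw [diagMap_apply]
      have := hd k
      field_simp
      ring
    rw [this]; exact hx
  · intro hy
    refine ⟨_, hy, ?_⟩
    funext k
    rw [diagMap_apply]
    have := hd k
    field_simp
    ring

section box

variable {n : ℕ} {c σ : Fin (n + 1) → ℝ} {h : ℝ} {I : Finset (Fin (n + 1))}

/-- **Clipped cubes in position.** -/
theorem clip_box (hn : n ≠ 0) (hh : 0 < h) (hσ : ∀ k, σ k * σ k = 1) (hI : I.Nonempty) :
    ConBall n {y : Fin (n + 1) → ℝ | (∀ k, |y k - c k| ≤ h) ∧ (∀ i ∈ I, σ i * (y i - c i) ≤ 0) ∧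
        ∃ i ∈ I, 0 ≤ σ i * (y i - c i)}
      {y : Fin (n + 1) → ℝ | ((∀ k, |y k - c k| ≤ h) ∧ ∃ k, |y k - c k| = h) ∧ (∀ i ∈ I, σ i * (y i - c i) ≤ 0) ∧
        ∃ i ∈ I, 0 ≤ σ i * (y i - c i)} ∧
    ConBall (n + 1) {y : Fin (n + 1) → ℝ | (∀ k, |y k - c k| ≤ h) ∧ (∀ i ∈ I, σ i * (y i - c i) ≤ 0)}
      {y : Fin (n + 1) → ℝ | (∀ k, |y k - c k| ≤ h) ∧ (∀ i ∈ I, σ i * (y i - c i) ≤ 0) ∧
        ((∃ k, |y k - c k| = h) ∨ ∃ i ∈ I, 0 ≤ σ i * (y i - c i))} ∧
    ConBall (n + 1) {y : Fin (n + 1) → ℝ | (∀ k, |y k - c k| ≤ h) ∧ (∃ i ∈ I, 0 ≤ σ i * (y i - c i))}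
      {y : Fin (n + 1) → ℝ | (∀ k, |y k - c k| ≤ h) ∧ (∃ i ∈ I, 0 ≤ σ i * (y i - c i)) ∧
        ((∃ k, |y k - c k| = h) ∨ ∀ i ∈ I, σ i * (y i - c i) ≤ 0)} := by
  have hσ0 : ∀ k, σ k ≠ 0 := fun k h0 => by
    have := hσ k; rw [h0] at this; norm_num at this
  have hσa : ∀ k, |σ k| = 1 := fun k => by
    have h1 : |σ k| * |σ k| = 1 := by rw [← abs_mul, hσ k, abs_one]
    nlinarith [abs_nonneg (σ k)]
  have hd : ∀ k, h * σ k ≠ 0 := fun k => mul_ne_zero hh.ne' (hσ0 k)
  -- translation of the conditions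
  have t1 : ∀ (y : Fin (n + 1) → ℝ) k, (y k - c k) / (h * σ k) = (σ k * (y k - c k)) / h := by
    intro y k
    rw [div_eq_div_iff (hd k) hh.ne']
    calc (y k - c k) * h = (σ k * σ k) * ((y k - c k) * h) := by rw [hσ k, one_mul]
      _ = σ k * (y k - c k) * (h * σ k) := by ring
  have t2 : ∀ (y : Fin (n + 1) → ℝ) k, |(y k - c k) / (h * σ k)| = |y k - c k| / h := by
    intro y k
    rw [abs_div, abs_mul, hσa k, mul_one, abs_of_pos hh]
  have t3 : ∀ (y : Fin (n + 1) → ℝ) k, ((y k - c k) / (h * σ k) ≤ 0 ↔ σ k * (y k - c k) ≤ 0) := by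
    intro y k
    rw [t1]
    exact ⟨fun h1 => by
      have := mul_nonpos_of_nonpos_of_nonneg h1 hh.le
      rwa [div_mul_cancel₀ _ hh.ne'] at this, fun h1 => div_nonpos_of_nonpos_of_nonneg h1 hh.le⟩
  have t4 : ∀ (y : Fin (n + 1) → ℝ) k, (0 ≤ (y k - c k) / (h * σ k) ↔ 0 ≤ σ k * (y k - c k)) := by
    intro y k
    rw [t1]
    exact ⟨fun h1 => by
      have := mul_nonneg h1 hh.le
      rwa [div_mul_cancel₀ _ hh.ne'] at this, fun h1 => div_nonneg h1 hh.le⟩
  have t5 : ∀ (y : Fin (n + 1) → ℝ), ((fun k => (y k - c k) / (h * σ k)) ∈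
      closedBall (0 : Fin (n + 1) → ℝ) 1 ↔ ∀ k, |y k - c k| ≤ h) := by
    intro y
    rw [mem_closedBall_pi']
    refine forall_congr' fun k => ?_
    rw [t2, div_le_one hh]
  have t6 : ∀ (y : Fin (n + 1) → ℝ), ((fun k => (y k - c k) / (h * σ k)) ∈
      sphere (0 : Fin (n + 1) → ℝ) 1 ↔ (∀ k, |y k - c k| ≤ h) ∧ ∃ k, |y k - c k| = h) := by
    intro y
    rw [mem_sphere_pi']
    refine and_congr (forall_congr' fun k => ?_) (exists_congr fun k => ?_)
    · rw [t2, div_le_one hh]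
    · rw [t2, div_eq_one_iff_eq hh.ne']
  obtain ⟨h1, h2, h3⟩ := conBall_clip hn I hI
  have g1 := h1.image_affine (diagMap c fun k => h * σ k) (diagMap_injective hd)
    (continuous_diagMap _ _)
  have g2 := h2.image_affine (diagMap c fun k => h * σ k) (diagMap_injective hd)
    (continuous_diagMap _ _)
  have g3 := h3.image_affine (diagMap c fun k => h * σ k) (diagMap_injective hd)
    (continuous_diagMap _ _)
  rw [diagMap_image hd, diagMap_image hd] at g1 g2 g3
  refine ⟨?_, ?_, ?_⟩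
  · convert g1 using 1
    · ext y
      simp only [mem_ofPred_eq, t5, t3, t4]
    · ext y
      simp only [mem_ofPred_eq, t6, t3, t4]
  · convert g2 using 1
    · ext y
      simp only [mem_ofPred_eq, t5, t3]
    · ext y
      simp only [mem_ofPred_eq, t5, t6, t3, t4]
      tauto
  · convert g3 using 1
    · ext y
      simp only [mem_ofPred_eq, t5, t4]
    · ext y
      simp only [mem_ofPred_eq, t5, t6, t3, t4]
      tauto

end box

theorem insMap_image {n : ℕ} (l : Fin (n + 1)) (c : ℝ) (X : Set (Fin n → ℝ)) :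
    insMap l c '' X = {y : Fin (n + 1) → ℝ | y l = c ∧ (fun i => y (l.succAbove i)) ∈ X} := by
  ext y
  constructor
  · rintro ⟨x, hx, rfl⟩
    refine ⟨insMap_same l c x, ?_⟩
    have : (fun i => insMap l c x (l.succAbove i)) = x := by
      funext i; rw [insMap_succAbove]
    rw [this]; exact hx
  · rintro ⟨hy, hx⟩
    refine ⟨_, hx, ?_⟩
    funext k
    refine l.succAboveCases ?_ (fun i => ?_) k
    · rw [insMap_same, hy]
    · rw [insMap_succAbove]

/-- **Clipped squares in position.** -/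
theorem clip_face {n : ℕ} {c σ : Fin (n + 2) → ℝ} {h : ℝ} {I : Finset (Fin (n + 2))}
    {l : Fin (n + 2)} (hn : n ≠ 0) (hh : 0 < h) (hσ : ∀ k, σ k * σ k = 1) (hI : I.Nonempty)
    (hl : l ∉ I) :
    ConBall n {y : Fin (n + 2) → ℝ | (y l = c l ∧ ∀ k, k ≠ l → |y k - c k| ≤ h) ∧
        (∀ i ∈ I, σ i * (y i - c i) ≤ 0) ∧ ∃ i ∈ I, 0 ≤ σ i * (y i - c i)}
      {y : Fin (n + 2) → ℝ | ((y l = c l ∧ ∀ k, k ≠ l → |y k - c k| ≤ h) ∧ ∃ k, k ≠ l ∧ |y k - c k| = h) ∧
        (∀ i ∈ I, σ i * (y i - c i) ≤ 0) ∧ ∃ i ∈ I, 0 ≤ σ i * (y i - c i)} ∧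
    ConBall (n + 1) {y : Fin (n + 2) → ℝ | (y l = c l ∧ ∀ k, k ≠ l → |y k - c k| ≤ h) ∧
        (∀ i ∈ I, σ i * (y i - c i) ≤ 0)}
      {y : Fin (n + 2) → ℝ | (y l = c l ∧ ∀ k, k ≠ l → |y k - c k| ≤ h) ∧ (∀ i ∈ I, σ i * (y i - c i) ≤ 0) ∧
        ((∃ k, k ≠ l ∧ |y k - c k| = h) ∨ ∃ i ∈ I, 0 ≤ σ i * (y i - c i))} ∧
    ConBall (n + 1) {y : Fin (n + 2) → ℝ | (y l = c l ∧ ∀ k, k ≠ l → |y k - c k| ≤ h) ∧
        (∃ i ∈ I, 0 ≤ σ i * (y i - c i))}
      {y : Fin (n + 2) → ℝ | (y l = c l ∧ ∀ k, k ≠ l → |y k - c k| ≤ h) ∧ (∃ i ∈ I, 0 ≤ σ i * (y i - c i)) ∧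
        ((∃ k, k ≠ l ∧ |y k - c k| = h) ∨ ∀ i ∈ I, σ i * (y i - c i) ≤ 0)} := by
  classical
  let I' : Finset (Fin (n + 1)) := Finset.univ.filter fun i => l.succAbove i ∈ I
  have memI' : ∀ i, i ∈ I' ↔ l.succAbove i ∈ I := fun i => by simp [I']
  have hI' : I'.Nonempty := by
    obtain ⟨k, hk⟩ := hI
    have hkl : k ≠ l := by rintro rfl; exact hl hk
    obtain ⟨i, rfl⟩ := Fin.exists_succAbove_eq hkl
    exact ⟨i, (memI' i).2 hk⟩
  have aI : ∀ P : Fin (n + 2) → Prop, (∀ i ∈ I, P i) ↔ ∀ i ∈ I', P (l.succAbove i) := by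
    intro P
    constructor
    · intro h i hi; exact h _ ((memI' i).1 hi)
    · intro h k hk
      have hkl : k ≠ l := by rintro rfl; exact hl hk
      obtain ⟨i, rfl⟩ := Fin.exists_succAbove_eq hkl
      exact h i ((memI' i).2 hk)
  have eI : ∀ P : Fin (n + 2) → Prop, (∃ i ∈ I, P i) ↔ ∃ i ∈ I', P (l.succAbove i) := by
    intro P
    constructor
    · rintro ⟨k, hk, h⟩
      have hkl : k ≠ l := by rintro rfl; exact hl hk
      obtain ⟨i, rfl⟩ := Fin.exists_succAbove_eq hkl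
      exact ⟨i, (memI' i).2 hk, h⟩
    · rintro ⟨i, hi, h⟩; exact ⟨_, (memI' i).1 hi, h⟩
  obtain ⟨h1, h2, h3⟩ := clip_box (c := fun i => c (l.succAbove i))
    (σ := fun i => σ (l.succAbove i)) (h := h) hn hh (fun k => hσ _) hI'
  have g1 := h1.image_affine (insMap l (c l)) (insMap_injective l _) (continuous_insMap l _)
  have g2 := h2.image_affine (insMap l (c l)) (insMap_injective l _) (continuous_insMap l _)
  have g3 := h3.image_affine (insMap l (c l)) (insMap_injective l _) (continuous_insMap l _)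
  rw [insMap_image, insMap_image] at g1 g2 g3
  refine ⟨?_, ?_, ?_⟩
  · convert g1 using 1
    · ext y
      simp only [mem_ofPred_eq, aI, eI, forall_ne_iff_succAbove]
      tauto
    · ext y
      simp only [mem_ofPred_eq, aI, eI, forall_ne_iff_succAbove, exists_ne_iff_succAbove]
      tauto
  · convert g2 using 1
    · ext y
      simp only [mem_ofPred_eq, aI, forall_ne_iff_succAbove]
      tauto
    · ext y
      simp only [mem_ofPred_eq, aI, eI, forall_ne_iff_succAbove, exists_ne_iff_succAbove]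
      tauto
  · convert g3 using 1
    · ext y
      simp only [mem_ofPred_eq, eI, forall_ne_iff_succAbove]
      tauto
    · ext y
      simp only [mem_ofPred_eq, aI, eI, forall_ne_iff_succAbove, exists_ne_iff_succAbove]
      tauto

end P073
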