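import Vale.Agent.P073.PR.Hemi
import Vale.Agent.P073.PR.Boxes
import Vale.Agent.P073.PT.ArcGlue
import Vale.Agent.P073.SCH.Amb

/-!
# P073, block GB3-D: cutting conical balls by proper discs

`split` : a level set of a function on a conical sphere which is a conical sphere of one dimension
less cuts it into two conical balls (input: Jordan-Schoenflies).
`cut` : a level set of a function on a conical ball which is a proper conical disc cuts it into two
conical balls (input: ambient Schoenflies).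
-/

open Set Metric Topology Filter

namespace P073

variable {E F : Type*} [NormedAddCommGroup E] [NormedSpace ℝ E]
  [NormedAddCommGroup F] [NormedSpace ℝ F]

/-- the ambient Schoenflies property in dimension `n + 1` (conical category). -/
def AmbSch (n : ℕ) : Prop := ∀ S : Set (Fin (n + 1) → ℝ), ConSphere n S →
  ∃ Φ : ConHomeo (univ : Set (Fin (n + 1) → ℝ)) (univ : Set (Fin (n + 1) → ℝ)),
    Φ.toFun '' sphere 0 1 = S

/-- two conical `n`-balls with the same boundary and no other common point form a sphere. -/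
def GlueSph (n : ℕ) : Prop := ∀ {E : Type} [NormedAddCommGroup E] [NormedSpace ℝ E]
  (A B C : Set E), ConBall n A C → ConBall n B C → A ∩ B = C → ConSphere n (A ∪ B)

theorem ConSphere.isCompact {n : ℕ} {S : Set E} (h : ConSphere n S) : IsCompact S := by
  obtain ⟨φ⟩ := h
  exact φ.symm.isCompact_right (isCompact_sphere _ _)

theorem ConSphere.image {n : ℕ} {S : Set E} (h : ConSphere n S) {X : Set E} {Y : Set F}
    (Φ : ConHomeo X Y) (hS : S ⊆ X) : ConSphere n (Φ.toFun '' S) := by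
  obtain ⟨φ⟩ := h
  exact ⟨(Φ.restr φ.conicalSet_left hS).symm.trans φ⟩

/-- the open part of a conical ball is the image of the open ball -/
theorem ConBall.diff_eq_image {n : ℕ} {C B : Set E} (h : ConBall n C B) :
    ∃ φ : ConHomeo C (closedBall (0 : Fin n → ℝ) 1), φ.toFun '' B = sphere 0 1 ∧
      φ.invFun '' ball 0 1 = C \ B := by
  obtain ⟨hBC, φ, hφ⟩ := h
  refine ⟨φ, hφ, ?_⟩
  ext x
  constructor
  · rintro ⟨y, hy, rfl⟩
    have hy' : y ∈ closedBall (0 : Fin n → ℝ) 1 := ball_subset_closedBall hy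
    refine ⟨φ.mapsTo_inv hy', fun hB => ?_⟩
    have h1 : φ.toFun (φ.invFun y) ∈ sphere (0 : Fin n → ℝ) 1 := hφ ▸ mem_image_of_mem _ hB
    rw [φ.right_inv hy'] at h1
    rw [mem_ball_zero_iff] at hy
    rw [mem_sphere_zero_iff_norm] at h1
    exact absurd h1 hy.ne
  · rintro ⟨hx, hxB⟩
    refine ⟨φ.toFun x, ?_, φ.left_inv hx⟩
    have h1 := φ.mapsTo hx
    rw [mem_closedBall_zero_iff] at h1
    rw [mem_ball_zero_iff]
    refine lt_of_le_of_ne h1 fun h2 => hxB ?_
    have h3 : φ.toFun x ∈ sphere (0 : Fin n → ℝ) 1 := mem_sphere_zero_iff_norm.2 h2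
    rw [← hφ] at h3
    obtain ⟨z, hz, hzx⟩ := h3
    rwa [← φ.injOn (hBC hz) hx hzx]

theorem ConBall.isPreconnected_diff {n : ℕ} {C B : Set E} (h : ConBall n C B) :
    IsPreconnected (C \ B) := by
  obtain ⟨φ, -, h2⟩ := h.diff_eq_image
  rw [← h2]
  exact ((convex_ball (0 : Fin n → ℝ) 1).isPreconnected).image _
    (φ.cont_inv.mono ball_subset_closedBall)

theorem ConBall.nonempty_diff {n : ℕ} {C B : Set E} (h : ConBall n C B) : (C \ B).Nonempty := by
  obtain ⟨φ, -, h2⟩ := h.diff_eq_image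
  rw [← h2]
  exact ⟨_, 0, mem_ball_self one_pos, rfl⟩

theorem ConBall.subset_closure_diff {n : ℕ} {C B : Set E} (h : ConBall n C B) :
    C ⊆ closure (C \ B) := by
  obtain ⟨φ, -, h2⟩ := h.diff_eq_image
  intro x hx
  have h3 : φ.toFun x ∈ closure (ball (0 : Fin n → ℝ) 1) := by
    rw [closure_ball _ one_ne_zero]; exact φ.mapsTo hx
  rw [← h2]
  have h4 : ContinuousWithinAt φ.invFun (ball (0 : Fin n → ℝ) 1) (φ.toFun x) :=
    (φ.cont_inv _ (φ.mapsTo hx)).mono ball_subset_closedBall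
  have h5 := h4.mem_closure_image h3
  rwa [φ.left_inv hx] at h5

/-- transport of the Jordan-Schoenflies property -/
theorem JordanSch.transport {n : ℕ} {S : Set E} {S' : Set F} (h : JordanSch n S)
    (φ : ConHomeo S S') : JordanSch n S' := by
  intro γ hγ hs
  have hγS : φ.invFun '' γ ⊆ S := fun x ⟨y, hy, hx⟩ => hx ▸ φ.mapsTo_inv (hγ hy)
  have hs' : ConSphere (n - 1) (φ.invFun '' γ) := hs.image φ.symm hγ
  obtain ⟨U, V, hUV, hU, hUn, hVn, hbU, hbV⟩ := h _ hγS hs'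
  have himg : φ.toFun '' (φ.invFun '' γ) = γ := by
    rw [image_image]
    have : ∀ x ∈ γ, φ.toFun (φ.invFun x) = x := fun x hx => φ.right_inv (hγ hx)
    rw [image_congr this, image_id']
  have hsub : U ∪ V ⊆ S := hU ▸ sdiff_subset
  have hUS : U ⊆ S := subset_union_left.trans hsub
  have hVS : V ⊆ S := subset_union_right.trans hsub
  refine ⟨φ.toFun '' U, φ.toFun '' V, ?_, ?_, hUn.image _, hVn.image _, ?_, ?_⟩
  · exact hUV.image φ.injOn hUS hVS
  · rw [← image_union, hU, (φ.injOn.image_sdiff_subset hγS), himg, φ.image_eq]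
  · have := hbU.image φ (union_subset hUS hγS)
    rwa [image_union, himg] at this
  · have := hbV.image φ (union_subset hVS hγS)
    rwa [image_union, himg] at this

/-- **Splitting a sphere**, general form: `P`, `Q` open, covering `S \ γ`, disjoint there. -/
theorem split_gen {n : ℕ} {S γ P Q : Set E} (hJ : JordanSch n S) (hγS : γ ⊆ S)
    (hγ : ConSphere (n - 1) γ) (hP : IsOpen P) (hQ : IsOpen Q) (hcov : S \ γ ⊆ P ∪ Q)
    (hdis : ∀ x ∈ S \ γ, x ∈ P → x ∉ Q) (hPn : (S \ γ ∩ P).Nonempty)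
    (hQn : (S \ γ ∩ Q).Nonempty) :
    ConBall n ((S \ γ) ∩ P ∪ γ) γ ∧ ConBall n ((S \ γ) ∩ Q ∪ γ) γ := by
  obtain ⟨U, V, hUV, hU, hUn, hVn, hbU, hbV⟩ := hJ γ hγS hγ
  have hUS : U ⊆ S \ γ := hU ▸ subset_union_left
  have hVS : V ⊆ S \ γ := hU ▸ subset_union_right
  have hc : ∀ W ⊆ S \ γ, ConBall n (W ∪ γ) γ → W ⊆ P ∨ W ⊆ Q := by
    intro W hW hb
    have h1 : (W ∪ γ) \ γ = W := by
      ext x
      constructor
      · rintro ⟨h | h, h'⟩
        · exact h
        · exact absurd h h'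
      · intro h
        exact ⟨Or.inl h, (hW h).2⟩
    have h2 : IsPreconnected W := h1 ▸ hb.isPreconnected_diff
    refine isPreconnected_iff_subset_of_disjoint.1 h2 P Q hP hQ (hW.trans hcov) ?_
    rw [eq_empty_iff_forall_notMem]
    rintro x ⟨hx, hxP, hxQ⟩
    exact hdis x (hW hx) hxP hxQ
  have key : ∀ U V : Set E, U ∪ V = S \ γ → U ⊆ P → V ⊆ Q →
      (S \ γ) ∩ P = U ∧ (S \ γ) ∩ Q = V := by
    intro U V hU h1 h2
    constructor
    · ext x
      constructor
      · rintro ⟨hx, hxP⟩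
        rw [← hU] at hx
        rcases hx with hx | hx
        · exact hx
        · exact absurd (h2 hx) (hdis x (hU ▸ Or.inr hx) hxP)
      · intro hx
        exact ⟨hU ▸ Or.inl hx, h1 hx⟩
    · ext x
      constructor
      · rintro ⟨hx, hxQ⟩
        rw [← hU] at hx
        rcases hx with hx | hx
        · exact absurd hxQ (hdis x (hU ▸ Or.inl hx) (h1 hx))
        · exact hx
      · intro hx
        exact ⟨hU ▸ Or.inr hx, h2 hx⟩
  rcases hc U hUS hbU with h1 | h1 <;> rcases hc V hVS hbV with h2 | h2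
  · exfalso
    obtain ⟨x, hx, hxQ⟩ := hQn
    have hx' := hx
    rw [← hU] at hx'
    rcases hx' with h | h
    · exact hdis x hx (h1 h) hxQ
    · exact hdis x hx (h2 h) hxQ
  · obtain ⟨e1, e2⟩ := key U V hU h1 h2
    rw [e1, e2]; exact ⟨hbU, hbV⟩
  · obtain ⟨e1, e2⟩ := key V U (by rw [union_comm]; exact hU) h2 h1
    rw [e1, e2]; exact ⟨hbV, hbU⟩
  · exfalso
    obtain ⟨x, hx, hxP⟩ := hPn
    have hx' := hx
    rw [← hU] at hx'
    rcases hx' with h | h
    · exact hdis x hx hxP (h1 h)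
    · exact hdis x hx hxP (h2 h)

/-- **Splitting a sphere by a level set.** -/
theorem split {n : ℕ} {S : Set E} (hJ : JordanSch n S) {v : E → ℝ} {t : ℝ}
    (hv : ContinuousOn v S) (hγ : ConSphere (n - 1) (S ∩ {x | v x = t}))
    (hp : ∃ x ∈ S, t < v x) (hn : ∃ x ∈ S, v x < t) :
    ConBall n (S ∩ {x | t ≤ v x}) (S ∩ {x | v x = t}) ∧
      ConBall n (S ∩ {x | v x ≤ t}) (S ∩ {x | v x = t}) := by
  obtain ⟨P, hP, hP'⟩ := (_root_.continuousOn_iff'.1 hv) (Ioi t) isOpen_Ioi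
  obtain ⟨Q, hQ, hQ'⟩ := (_root_.continuousOn_iff'.1 hv) (Iio t) isOpen_Iio
  have mP : ∀ x ∈ S, (x ∈ P ↔ t < v x) := by
    intro x hx
    have h1 : x ∈ v ⁻¹' Ioi t ∩ S ↔ x ∈ P ∩ S := by rw [hP']
    exact ⟨fun h => (h1.2 ⟨h, hx⟩).1, fun h => (h1.1 ⟨h, hx⟩).1⟩
  have mQ : ∀ x ∈ S, (x ∈ Q ↔ v x < t) := by
    intro x hx
    have h1 : x ∈ v ⁻¹' Iio t ∩ S ↔ x ∈ Q ∩ S := by rw [hQ']
    exact ⟨fun h => (h1.2 ⟨h, hx⟩).1, fun h => (h1.1 ⟨h, hx⟩).1⟩
  obtain ⟨h1, h2⟩ := split_gen hJ inter_subset_left hγ hP hQ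
    (by
      rintro x ⟨hx, hx'⟩
      rcases lt_trichotomy (v x) t with h | h | h
      · exact Or.inr ((mQ x hx).2 h)
      · exact absurd ⟨hx, h⟩ hx'
      · exact Or.inl ((mP x hx).2 h))
    (by
      rintro x ⟨hx, _⟩ h1 h2
      exact lt_asymm ((mP x hx).1 h1) ((mQ x hx).1 h2))
    (by
      obtain ⟨x, hx, h⟩ := hp
      exact ⟨x, ⟨hx, fun h' => h.ne' h'.2⟩, (mP x hx).2 h⟩)
    (by
      obtain ⟨x, hx, h⟩ := hn
      exact ⟨x, ⟨hx, fun h' => h.ne h'.2⟩, (mQ x hx).2 h⟩)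
  have e1 : (S \ (S ∩ {x | v x = t})) ∩ P ∪ (S ∩ {x | v x = t}) = S ∩ {x | t ≤ v x} := by
    ext x
    constructor
    · rintro (⟨⟨hx, _⟩, h⟩ | ⟨hx, h⟩)
      · exact ⟨hx, ((mP x hx).1 h).le⟩
      · exact ⟨hx, (show v x = t from h).ge⟩
    · rintro ⟨hx, h⟩
      rcases eq_or_lt_of_le (show t ≤ v x from h) with h' | h'
      · exact Or.inr ⟨hx, h'.symm⟩
      · exact Or.inl ⟨⟨hx, fun h'' => h'.ne' h''.2⟩, (mP x hx).2 h'⟩
  have e2 : (S \ (S ∩ {x | v x = t})) ∩ Q ∪ (S ∩ {x | v x = t}) = S ∩ {x | v x ≤ t} := by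
    ext x
    constructor
    · rintro (⟨⟨hx, _⟩, h⟩ | ⟨hx, h⟩)
      · exact ⟨hx, ((mQ x hx).1 h).le⟩
      · exact ⟨hx, (show v x = t from h).le⟩
    · rintro ⟨hx, h⟩
      rcases eq_or_lt_of_le (show v x ≤ t from h) with h' | h'
      · exact Or.inr ⟨hx, h'⟩
      · exact Or.inl ⟨⟨hx, fun h'' => h'.ne h''.2⟩, (mQ x hx).2 h'⟩
  rw [e1] at h1
  rw [e2] at h2
  exact ⟨h1, h2⟩


theorem isPreconnected_compl_closedBall {n : ℕ} (hn : n ≠ 0) :
    IsPreconnected ((closedBall (0 : Fin (n + 1) → ℝ) 1)ᶜ) := by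
  have hdim : 1 < Module.rank ℝ (Fin (n + 1) → ℝ) := by
    rw [rank_fin_fun]
    exact_mod_cast Nat.lt_add_of_pos_left (Nat.pos_of_ne_zero hn)
  have h1 := (isConnected_compl_singleton_of_one_lt_rank hdim 0).isPreconnected
  have h2 : ContinuousOn (fun y : Fin (n + 1) → ℝ => ((1 + ‖y‖) * ‖y‖⁻¹) • y) {0}ᶜ := by
    intro y hy
    have hy' : ‖y‖ ≠ 0 := norm_ne_zero_iff.2 hy
    exact (((continuousAt_const.add continuousAt_id.norm).mul
      (ContinuousAt.inv₀ continuousAt_id.norm hy')).smul continuousAt_id).continuousWithinAt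
  have h3 := h1.image _ h2
  convert h3 using 1
  ext z
  rw [mem_compl_iff, mem_closedBall_zero_iff, not_le]
  constructor
  · intro hz
    have hz0 : (0:ℝ) < ‖z‖ := one_pos.trans hz
    have hc : 0 < (‖z‖ - 1) * ‖z‖⁻¹ := mul_pos (sub_pos.2 hz) (inv_pos.2 hz0)
    refine ⟨((‖z‖ - 1) * ‖z‖⁻¹) • z, ?_, ?_⟩
    · rw [mem_compl_singleton_iff]
      exact smul_ne_zero hc.ne' (norm_pos_iff.1 hz0)
    · have e1 : ‖((‖z‖ - 1) * ‖z‖⁻¹) • z‖ = ‖z‖ - 1 := by
        rw [norm_smul, Real.norm_of_nonneg hc.le]; field_simp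
      simp only
      rw [e1, smul_smul]
      have : (1 + (‖z‖ - 1)) * (‖z‖ - 1)⁻¹ * ((‖z‖ - 1) * ‖z‖⁻¹) = 1 := by
        have : ‖z‖ - 1 ≠ 0 := (sub_pos.2 hz).ne'
        field_simp
        ring
      rw [this, one_smul]
  · rintro ⟨y, hy, rfl⟩
    have hy' : 0 < ‖y‖ := norm_pos_iff.2 hy
    simp only
    rw [norm_smul, Real.norm_of_nonneg (by positivity), mul_assoc, inv_mul_cancel₀ hy'.ne']
    linarith

/-- **Cutting the standard ball.** -/
theorem cut_std {n : ℕ} (hn : n ≠ 0) (hA : AmbSch n) (hG : GlueSph n)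
    {v : (Fin (n + 1) → ℝ) → ℝ} {t : ℝ} (hv : ContinuousOn v (closedBall 0 1))
    (hZ : ConBall n (closedBall 0 1 ∩ {x | v x = t}) (sphere 0 1 ∩ {x | v x = t}))
    (hB : ConBall n (sphere 0 1 ∩ {x | t ≤ v x}) (sphere 0 1 ∩ {x | v x = t})) :
    ConBall (n + 1) (closedBall 0 1 ∩ {x | t ≤ v x})
      (closedBall 0 1 ∩ {x | v x = t} ∪ sphere 0 1 ∩ {x | t ≤ v x}) := by
  obtain ⟨Φ, hΦ⟩ := hA _ (hG _ _ _ hZ hB (by
    ext x
    constructor
    · rintro ⟨⟨_, h1⟩, h2, _⟩; exact ⟨h2, h1⟩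
    · rintro ⟨h1, h2⟩
      exact ⟨⟨sphere_subset_closedBall h1, h2⟩, h1, (show v x = t from h2).ge⟩))
  set T := closedBall (0 : Fin (n + 1) → ℝ) 1 ∩ {x | v x = t} ∪ sphere 0 1 ∩ {x | t ≤ v x}
    with hT
  obtain ⟨P, hP, hP'⟩ := (_root_.continuousOn_iff'.1 hv) (Ioi t) isOpen_Ioi
  have mP : ∀ x ∈ closedBall (0 : Fin (n + 1) → ℝ) 1, (x ∈ P ↔ t < v x) := by
    intro x hx
    have h1 : x ∈ v ⁻¹' Ioi t ∩ closedBall 0 1 ↔ x ∈ P ∩ closedBall 0 1 := by rw [hP']
    exact ⟨fun h => (h1.2 ⟨h, hx⟩).1, fun h => (h1.1 ⟨h, hx⟩).1⟩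
  -- the open part
  let O : Set (Fin (n + 1) → ℝ) := ball 0 1 ∩ P
  have hO : IsOpen O := isOpen_ball.inter hP
  have hOc : closure O ⊆ O ∪ T := by
    intro x hx
    have h1 : x ∈ closedBall (0 : Fin (n + 1) → ℝ) 1 :=
      closure_ball_subset_closedBall (closure_mono inter_subset_left hx)
    have h2 : t ≤ v x := by
      by_contra h
      push Not at h
      obtain ⟨Q, hQ, hQ'⟩ := (_root_.continuousOn_iff'.1 hv) (Iio t) isOpen_Iio
      have h3 : x ∈ Q := by
        have : x ∈ v ⁻¹' Iio t ∩ closedBall 0 1 := ⟨h, h1⟩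
        rw [hQ'] at this; exact this.1
      obtain ⟨y, hyQ, hyO⟩ := mem_closure_iff.1 hx Q hQ h3
      have h4 : y ∈ closedBall (0 : Fin (n + 1) → ℝ) 1 := ball_subset_closedBall hyO.1
      have h5 : y ∈ v ⁻¹' Iio t ∩ closedBall 0 1 := by rw [hQ']; exact ⟨hyQ, h4⟩
      exact lt_asymm ((mP y h4).1 hyO.2) h5.1
    rcases eq_or_lt_of_le h2 with h3 | h3
    · exact Or.inr (Or.inl ⟨h1, h3.symm⟩)
    · rcases eq_or_lt_of_le (mem_closedBall_zero_iff.1 h1) with h4 | h4
      · exact Or.inr (Or.inr ⟨mem_sphere_zero_iff_norm.2 h4, h2⟩)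
      · exact Or.inl ⟨mem_ball_zero_iff.2 h4, (mP x h1).2 h3⟩
  have hOT : ∀ x ∈ O, x ∉ T := by
    rintro x ⟨h1, h2⟩ (⟨h3, h4⟩ | ⟨h3, _⟩)
    · exact ((mP x h3).1 h2).ne' h4
    · rw [mem_sphere_zero_iff_norm] at h3
      rw [mem_ball_zero_iff] at h1
      exact h1.ne h3
  have hclopen : ∀ A : Set (Fin (n + 1) → ℝ), IsPreconnected A → (∀ x ∈ A, x ∉ T) →
      (A ∩ O).Nonempty → A ⊆ O := by
    intro A hA hAT hne
    have h1 : A ⊆ O ∪ (closure O)ᶜ := by
      intro x hx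
      by_cases h : x ∈ closure O
      · exact Or.inl ((hOc h).resolve_right (hAT x hx))
      · exact Or.inr h
    have h2 : A ∩ (O ∩ (closure O)ᶜ) = ∅ := by
      rw [eq_empty_iff_forall_notMem]
      rintro x ⟨_, h, h'⟩
      exact h' (subset_closure h)
    rcases isPreconnected_iff_subset_of_disjoint.1 hA O (closure O)ᶜ hO
      isClosed_closure.isOpen_compl h1 h2 with h | h
    · exact h
    · obtain ⟨x, hx, hxO⟩ := hne
      exact absurd (subset_closure hxO) (h hx)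
  -- nonempty
  have hOne : O.Nonempty := by
    obtain ⟨x, ⟨hx1, hx2⟩, hx3⟩ := hB.nonempty_diff
    have hx1' := sphere_subset_closedBall hx1
    have h1 : t < v x := lt_of_le_of_ne hx2 fun h => hx3 ⟨hx1, h.symm⟩
    have h2 : x ∈ closure (ball (0 : Fin (n + 1) → ℝ) 1) := by
      rw [closure_ball _ one_ne_zero]; exact hx1'
    obtain ⟨y, hy1, hy2⟩ := mem_closure_iff.1 h2 P hP ((mP x hx1').2 h1)
    exact ⟨y, hy2, hy1⟩
  -- images of the inside and the outside
  have hin : IsPreconnected (Φ.toFun '' ball 0 1) :=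
    ((convex_ball (0 : Fin (n + 1) → ℝ) 1).isPreconnected).image _ Φ.continuous.continuousOn
  have hout : IsPreconnected (Φ.toFun '' (closedBall 0 1)ᶜ) := by
    exact (isPreconnected_compl_closedBall hn).image _ Φ.continuous.continuousOn
  have hcover : ∀ x : Fin (n + 1) → ℝ, x ∉ T → x ∈ Φ.toFun '' ball 0 1 ∨
      x ∈ Φ.toFun '' (closedBall 0 1)ᶜ := by
    intro x hx
    rw [← hΦ, Φ.mem_image_iff, mem_sphere_zero_iff_norm] at hx
    rw [Φ.mem_image_iff, Φ.mem_image_iff, mem_compl_iff, mem_ball_zero_iff,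
      mem_closedBall_zero_iff, not_le]
    exact lt_or_gt_of_ne hx
  have hinT : ∀ x ∈ Φ.toFun '' ball 0 1, x ∉ T := by
    intro x hx
    rw [Φ.mem_image_iff, mem_ball_zero_iff] at hx
    rw [← hΦ, Φ.mem_image_iff, mem_sphere_zero_iff_norm]
    exact hx.ne
  have houtT : ∀ x ∈ Φ.toFun '' (closedBall 0 1)ᶜ, x ∉ T := by
    intro x hx
    rw [Φ.mem_image_iff, mem_compl_iff, mem_closedBall_zero_iff, not_le] at hx
    rw [← hΦ, Φ.mem_image_iff, mem_sphere_zero_iff_norm]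
    exact hx.ne'
  have hOout : ¬ (Φ.toFun '' (closedBall 0 1)ᶜ ∩ O).Nonempty := by
    intro hne
    have h1 := hclopen _ hout houtT hne
    -- the outside is not contained in a compact set
    have h2 : (univ : Set (Fin (n + 1) → ℝ)) ⊆ closedBall 0 1 ∪ Φ.toFun '' closedBall 0 1 := by
      intro x _
      by_cases h : x ∈ Φ.toFun '' closedBall 0 1
      · exact Or.inr h
      · left
        have : x ∈ Φ.toFun '' (closedBall 0 1)ᶜ := by
          rw [Φ.image_compl]; exact h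
        exact ball_subset_closedBall (h1 this).1
    have h3 : IsCompact (univ : Set (Fin (n + 1) → ℝ)) :=
      ((isCompact_closedBall _ _).union ((isCompact_closedBall _ _).image Φ.continuous)).of_isClosed_subset
        isClosed_univ h2
    exact noncompact_univ _ h3
  have hOeq : O = Φ.toFun '' ball 0 1 := by
    apply Subset.antisymm
    · intro x hx
      rcases hcover x (hOT x hx) with h | h
      · exact h
      · exact absurd ⟨x, h, hx⟩ hOout
    · apply hclopen _ hin hinT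
      obtain ⟨x, hx⟩ := hOne
      rcases hcover x (hOT x hx) with h | h
      · exact ⟨x, h, hx⟩
      · exact absurd ⟨x, h, hx⟩ hOout
  have hcl : closure O = Φ.toFun '' closedBall 0 1 := by
    rw [hOeq, ← Φ.image_closure, closure_ball _ one_ne_zero]
  have hmain : closedBall (0 : Fin (n + 1) → ℝ) 1 ∩ {x | t ≤ v x} = Φ.toFun '' closedBall 0 1 := by
    rw [← hcl]
    apply Subset.antisymm
    · rintro x ⟨h1, h2⟩
      rcases eq_or_lt_of_le (show t ≤ v x from h2) with h3 | h3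
      · have h4 : x ∈ T := Or.inl ⟨h1, h3.symm⟩
        rw [hcl]
        rw [← hΦ] at h4
        exact image_mono sphere_subset_closedBall h4
      · have h4 : x ∈ closure (ball (0 : Fin (n + 1) → ℝ) 1) := by
          rw [closure_ball _ one_ne_zero]; exact h1
        rw [_root_.mem_closure_iff]
        intro W hW hxW
        obtain ⟨y, ⟨hy1, hy2⟩, hy3⟩ := mem_closure_iff.1 h4 (W ∩ P) (hW.inter hP)
          ⟨hxW, (mP x h1).2 h3⟩
        exact ⟨y, hy1, hy3, hy2⟩
    · intro x hx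
      rcases hOc hx with h | h
      · exact ⟨ball_subset_closedBall h.1, ((mP x (ball_subset_closedBall h.1)).1 h.2).le⟩
      · rcases h with h | h
        · exact ⟨h.1, (show v x = t from h.2).ge⟩
        · exact ⟨sphere_subset_closedBall h.1, h.2⟩
  rw [hmain, ← hΦ]
  exact (conBall_std (n + 1)).image Φ (subset_univ _)

/-- **Cutting a conical ball** by a level set of a function which is a proper conical disc. -/
theorem cut_ge {E : Type} [NormedAddCommGroup E] [NormedSpace ℝ E] {n : ℕ} (hn : n ≠ 0)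
    (hA : AmbSch n) (hG : GlueSph n) {C B : Set E} (hC : ConBall (n + 1) C B)
    {v : E → ℝ} {t : ℝ} (hv : ContinuousOn v C)
    (hZ : ConBall n (C ∩ {x | v x = t}) (B ∩ {x | v x = t}))
    (hB : ConBall n (B ∩ {x | t ≤ v x}) (B ∩ {x | v x = t})) :
    ConBall (n + 1) (C ∩ {x | t ≤ v x}) (C ∩ {x | v x = t} ∪ B ∩ {x | t ≤ v x}) := by
  have hBC : B ⊆ C := hC.1
  obtain ⟨φ, hφ, -⟩ := hC.diff_eq_image
  have hφ' : φ.invFun '' sphere 0 1 = B := by
    rw [← hφ, image_image]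
    have : ∀ x ∈ B, φ.invFun (φ.toFun x) = x := fun x hx => φ.left_inv (hBC hx)
    rw [image_congr this, image_id']
  -- transport of sets
  have tr : ∀ (A : Set E) (A' : Set (Fin (n + 1) → ℝ)) (P : ℝ → Prop), A ⊆ C →
      φ.toFun '' A = A' → φ.toFun '' (A ∩ {x | P (v x)}) = A' ∩ {y | P (v (φ.invFun y))} := by
    intro A A' P hAC hA
    rw [← hA]
    ext y
    constructor
    · rintro ⟨x, ⟨hx, hPx⟩, rfl⟩
      refine ⟨mem_image_of_mem _ hx, ?_⟩
      show P (v (φ.invFun (φ.toFun x)))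
      rw [φ.left_inv (hAC hx)]; exact hPx
    · rintro ⟨⟨x, hx, rfl⟩, hPx⟩
      refine ⟨x, ⟨hx, ?_⟩, rfl⟩
      have : P (v (φ.invFun (φ.toFun x))) := hPx
      rw [φ.left_inv (hAC hx)] at this; exact this
  have hCim : φ.toFun '' C = closedBall 0 1 := φ.image_eq
  have hv' : ContinuousOn (fun y => v (φ.invFun y)) (closedBall 0 1) :=
    hv.comp φ.cont_inv φ.mapsTo_inv
  have hZ' := hZ.image φ inter_subset_left
  have hB' := hB.image φ (inter_subset_left.trans hBC)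
  rw [tr C _ (· = t) subset_rfl hCim, tr B _ (· = t) hBC hφ] at hZ'
  rw [tr B _ (t ≤ ·) hBC hφ, tr B _ (· = t) hBC hφ] at hB'
  have h := (cut_std hn hA hG hv' hZ' hB').image φ.symm inter_subset_left
  have back : ∀ A ⊆ C, φ.invFun '' (φ.toFun '' A) = A := by
    intro A hA
    rw [image_image]
    have : ∀ x ∈ A, φ.invFun (φ.toFun x) = x := fun x hx => φ.left_inv (hA hx)
    rw [image_congr this, image_id']
  rw [ConHomeo.symm_toFun, image_union, ← tr C _ (t ≤ ·) subset_rfl hCim,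
    ← tr C _ (· = t) subset_rfl hCim, ← tr B _ (t ≤ ·) hBC hφ, back _ inter_subset_left,
    back _ inter_subset_left, back _ (inter_subset_left.trans hBC)] at h
  exact h

theorem cut_le {E : Type} [NormedAddCommGroup E] [NormedSpace ℝ E] {n : ℕ} (hn : n ≠ 0)
    (hA : AmbSch n) (hG : GlueSph n) {C B : Set E} (hC : ConBall (n + 1) C B)
    {v : E → ℝ} {t : ℝ} (hv : ContinuousOn v C)
    (hZ : ConBall n (C ∩ {x | v x = t}) (B ∩ {x | v x = t}))
    (hB : ConBall n (B ∩ {x | v x ≤ t}) (B ∩ {x | v x = t})) :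
    ConBall (n + 1) (C ∩ {x | v x ≤ t}) (C ∩ {x | v x = t} ∪ B ∩ {x | v x ≤ t}) := by
  have e1 : {x : E | -v x = -t} = {x | v x = t} := by ext x; simp
  have e2 : {x : E | -t ≤ -v x} = {x | v x ≤ t} := by ext x; simp
  have := cut_ge hn hA hG hC (v := fun x => - v x) (t := -t) hv.neg (by rw [e1]; exact hZ)
    (by rw [e1, e2]; exact hB)
  rw [e1, e2] at this
  exact this

end P073
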