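import Vale.Agent.P073.GB371.LatCut

/-!
# P073, GB371: `DomCut` for a box with faces at half-integer positions (block GBM-d)
-/

open Set Metric Topology Filter

namespace P073.GB371

open P073 P073.PR720 P073.GB73 P073.GBM
open Vale.Agent.P073.St (V)
open Vale.Agent.P073.AB (pt edge squ EdgeOfSq)
open Vale.Agent.P073.SQ (ev)
open P073.Net (dyc)

/-- the lattice box which contains all cells meeting the boundary of `hbox v n α β` -/
noncomputable def lbox (v : V) (n : ℕ) (α β : Fin 3 → ℤ) : Set V :=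
  Icc (pt v n α) (pt v n fun k => β k + 1)

/-- **(GBM-d)** the half-integer box cuts the complex along its pattern -/
def SpecDomCut' : Prop :=
  ∀ (Vx B J I : Type) (e0 e1 : B → Vx) (inc : B → J → Prop) (qC : J → I → Prop) (Ω : Set V)
    (K : Cx3 e0 e1 inc qC Ω) (v : V) (n : ℕ) (U : Set V), Lat K v n U →
  ∀ α β : Fin 3 → ℤ, (∀ k, α k < β k) → lbox v n α β ⊆ U →
  ∀ p : B → V, IsCut K v n α β p →
    DomCut K (hbox v n α β) (crossed K (hbox v n α β)) p

theorem third_dir : ∀ m l : Fin 3, m ≠ l →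
    ∃ k : Fin 3, k ≠ m ∧ k ≠ l ∧ ∀ j, j = k ∨ j = m ∨ j = l := by decide

theorem third_dir' : ∀ k l : Fin 3, k ≠ l → ∃ m : Fin 3, m ≠ k ∧ m ≠ l := by decide

theorem other_dir : ∀ k : Fin 3, ∃ m : Fin 3, m ≠ k := by decide

section lattice

variable {v : V} {n : ℕ} {α β z w : Fin 3 → ℤ} {x : V} {k l : Fin 3}

theorem mem_lbox : x ∈ lbox v n α β ↔ ∀ k, pt v n α k ≤ x k ∧ x k ≤ pt v n β k + 1 / 2 ^ n := by
  have e : ∀ k, pt v n (fun k => β k + 1) k = pt v n β k + 1 / 2 ^ n := by
    intro k
    rw [pt_succ]; unfold pt; push_cast; ring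
  unfold lbox
  constructor
  · intro h k; exact ⟨h.1 k, (h.2 k).trans (e k).le⟩
  · intro h; exact ⟨fun k => (h k).1, fun k => (h k).2.trans (e k).ge⟩

theorem hbox_subset_lbox : hbox v n α β ⊆ lbox v n α β := by
  intro x hx
  rw [mem_hbox] at hx
  rw [mem_lbox]
  intro k
  have := half_pos' n
  have h1 := hx k
  constructor
  · rw [pt_eq_hp_sub]; linarith
  · rw [pt_add_eq_hp_add]; linarith

/-- a coordinate range inside the lattice box -/
theorem coord_lbox (h1 : α k ≤ z k) (h2 : z k ≤ β k)
    (hx : pt v n z k ≤ x k ∧ x k ≤ pt v n z k + 1 / 2 ^ n) :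
    pt v n α k ≤ x k ∧ x k ≤ pt v n β k + 1 / 2 ^ n :=
  ⟨(pt_le_pt.2 h1).trans hx.1, hx.2.trans (by have := pt_le_pt (v := v) (n := n).2 h2; linarith)⟩

/-- the boundary curve of a lattice square is the union of its edges -/
theorem mem_sqB : x ∈ sqB v n z l ↔
    ∃ w k, EdgeOfSq ((n, w), k) ((n, z), l) ∧ x ∈ edge v ((n, w), k) := by
  have hpos : (0:ℝ) < 1 / 2 ^ n := by positivity
  constructor
  · rintro ⟨hx, m, hml, hm⟩
    rw [mem_squ] at hx
    obtain ⟨k, hkm, hkl, hall⟩ := third_dir m l hml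
    rcases hm with hm | hm
    · refine ⟨z, k, ⟨rfl, hkl, rfl, rfl, fun j _ _ => Or.inl rfl⟩, mem_edge.2 ⟨?_, hx.2 k hkl⟩⟩
      intro j hj
      rcases hall j with h | h | h
      · exact absurd h hj
      · rw [h]; exact hm
      · rw [h]; exact hx.1
    · refine ⟨Function.update z m (z m + 1), k, ⟨rfl, hkl, ?_, ?_, ?_⟩, mem_edge.2 ⟨?_, ?_⟩⟩
      · exact Function.update_of_ne hkm _ _
      · exact Function.update_of_ne (Ne.symm hml) _ _
      · intro j hj1 hj2
        have hjm : j = m := by
          rcases hall j with h | h | h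
          · exact absurd h hj1
          · exact h
          · exact absurd h hj2
        right
        rw [hjm]
        exact Function.update_self _ _ _
      · intro j hj
        rcases hall j with h | h | h
        · exact absurd h hj
        · rw [h, hm]
          unfold pt
          rw [Function.update_self]
          push_cast
          ring
        · rw [h, hx.1]
          exact (pt_inj.2 (Function.update_of_ne (Ne.symm hml) _ _)).symm
      · have : pt v n (Function.update z m (z m + 1)) k = pt v n z k :=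
          pt_inj.2 (Function.update_of_ne hkm _ _)
        rw [this]; exact hx.2 k hkl
  · rintro ⟨w, k, hE, hx⟩
    have hsq := edge_subset_squ.2 hE hx
    refine ⟨hsq, ?_⟩
    obtain ⟨-, hkl, h1, h2, h3⟩ := hE
    simp only at hkl h1 h2 h3
    obtain ⟨m, hmk, hml⟩ := third_dir' k l hkl
    refine ⟨m, hml, ?_⟩
    rw [mem_edge] at hx
    rw [hx.1 m hmk]
    rcases h3 m hmk hml with h | h
    · exact Or.inl (pt_inj.2 h)
    · right
      unfold pt
      rw [h]
      push_cast
      ring

/-- squares inside a lattice cube -/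
theorem squ_subset_dyc : squ v ((n, w), l) ⊆ dyc v n z ↔
    (w l = z l ∨ w l = z l + 1) ∧ ∀ k, k ≠ l → w k = z k := by
  have hpos : (0:ℝ) < 1 / 2 ^ n := by positivity
  constructor
  · intro h
    have h1 : pt v n w ∈ squ v ((n, w), l) := mem_squ.2 ⟨rfl, fun k _ => ⟨le_refl _, by linarith⟩⟩
    have h2 : (fun k => if k = l then pt v n w k else pt v n w k + 1 / 2 ^ n) ∈
        squ v ((n, w), l) := by
      refine mem_squ.2 ⟨by simp, fun k hk => ?_⟩
      simp only [if_neg hk]
      exact ⟨by linarith, le_refl _⟩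
    have h1' := mem_dyc.1 (h h1)
    have h2' := mem_dyc.1 (h h2)
    constructor
    · have a1 := pt_le_pt.1 (h1' l).1
      have a2 := pt_le_pt_succ.1 (h1' l).2
      omega
    · intro k hk
      have a1 := pt_le_pt.1 (h1' k).1
      have a2 := (h2' k).2
      simp only [if_neg hk] at a2
      have a3 : pt v n w k ≤ pt v n z k := by linarith
      exact le_antisymm (pt_le_pt.1 a3) a1
  · rintro ⟨h1, h2⟩ x hx
    rw [mem_squ] at hx
    rw [mem_dyc]
    intro k
    by_cases hk : k = l
    · subst hk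
      rw [hx.1]
      rcases h1 with h | h
      · rw [pt_inj.2 h]; exact ⟨le_refl _, by linarith⟩
      · constructor
        · rw [pt_le_pt, h]; omega
        · rw [pt_le_pt_succ, h]
    · have e : pt v n w k = pt v n z k := pt_inj.2 (h2 k hk)
      rw [← e]
      exact hx.2 k hk

/-- the surface of a lattice cube is the union of its six squares -/
theorem mem_cuB : x ∈ cuB v n z ↔
    ∃ w l, squ v ((n, w), l) ⊆ dyc v n z ∧ x ∈ squ v ((n, w), l) := by
  constructor
  · rintro ⟨hx, l, hl⟩
    rw [mem_dyc] at hx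
    rcases hl with hl | hl
    · exact ⟨z, l, squ_subset_dyc.2 ⟨Or.inl rfl, fun _ _ => rfl⟩, mem_squ.2 ⟨hl, fun k _ => hx k⟩⟩
    · refine ⟨Function.update z l (z l + 1), l, squ_subset_dyc.2 ⟨Or.inr ?_, fun k hk => ?_⟩,
        mem_squ.2 ⟨?_, fun k hk => ?_⟩⟩
      · exact Function.update_self _ _ _
      · exact Function.update_of_ne hk _ _
      · rw [hl]
        unfold pt
        rw [Function.update_self]
        push_cast
        ring
      · have : pt v n (Function.update z l (z l + 1)) k = pt v n z k :=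
          pt_inj.2 (Function.update_of_ne hk _ _)
        rw [this]; exact hx k
  · rintro ⟨w, l, h, hx⟩
    refine ⟨h hx, l, ?_⟩
    obtain ⟨h1, -⟩ := squ_subset_dyc.1 h
    rw [mem_squ] at hx
    rw [hx.1]
    rcases h1 with h | h
    · exact Or.inl (pt_inj.2 h)
    · right
      unfold pt
      rw [h]
      push_cast
      ring

/-- a lattice square which meets the boundary of the box -/
theorem squ_data (h : (squ v ((n, z), l) ∩ frontier (hbox v n α β)).Nonempty) :
    (∀ k, k ≠ l → α k ≤ z k ∧ z k ≤ β k) ∧ (α l < z l ∧ z l ≤ β l) ∧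
      ∃ k, k ≠ l ∧ (z k = α k ∨ z k = β k) := by
  obtain ⟨x, hx1, hx2⟩ := h
  rw [mem_squ] at hx1
  rw [mem_frontier_hbox] at hx2
  have h1 : ∀ k, k ≠ l → α k ≤ z k ∧ z k ≤ β k := fun k hk => range_of_mem (hx1.2 k hk) (hx2.1 k)
  have h2 : α l < z l ∧ z l ≤ β l := by
    have := hx2.1 l
    rw [hx1.1] at this
    exact ⟨hp_le_pt.1 this.1, pt_le_hp.1 this.2⟩
  refine ⟨h1, h2, ?_⟩
  by_contra hcon
  push Not at hcon
  obtain ⟨m, hm⟩ := hx2.2
  by_cases hml : m = l
  · subst hml
    have := strict_flat h2.1 h2.2 hx1.1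
    rcases hm with hm | hm
    · exact absurd hm this.1.ne'
    · exact absurd hm this.2.ne
  · have h3 := hcon m hml
    have := strict_inside (lt_of_le_of_ne (h1 m hml).1 (Ne.symm h3.1))
      (lt_of_le_of_ne (h1 m hml).2 h3.2) (hx1.2 m hml)
    rcases hm with hm | hm
    · exact absurd hm this.1.ne'
    · exact absurd hm this.2.ne

theorem cube_data (h : (dyc v n z ∩ frontier (hbox v n α β)).Nonempty) :
    (∀ k, α k ≤ z k ∧ z k ≤ β k) ∧ ∃ k, (z k = α k ∨ z k = β k) := by
  obtain ⟨x, hx1, hx2⟩ := h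
  rw [mem_dyc] at hx1
  rw [mem_frontier_hbox] at hx2
  have h1 : ∀ k, α k ≤ z k ∧ z k ≤ β k := fun k => range_of_mem (hx1 k) (hx2.1 k)
  refine ⟨h1, ?_⟩
  by_contra hcon
  push Not at hcon
  obtain ⟨m, hm⟩ := hx2.2
  have h3 := hcon m
  have := strict_inside (lt_of_le_of_ne (h1 m).1 (Ne.symm h3.1))
    (lt_of_le_of_ne (h1 m).2 h3.2) (hx1 m)
  rcases hm with hm | hm
  · exact absurd hm this.1.ne'
  · exact absurd hm this.2.ne

theorem squ_subset_lbox (h1 : ∀ k, k ≠ l → α k ≤ z k ∧ z k ≤ β k) (h2 : α l < z l ∧ z l ≤ β l) :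
    squ v ((n, z), l) ⊆ lbox v n α β := by
  have hpos : (0:ℝ) < 1 / 2 ^ n := by positivity
  intro x hx
  rw [mem_squ] at hx
  rw [mem_lbox]
  intro k
  by_cases hk : k = l
  · subst hk
    exact coord_lbox h2.1.le h2.2 (by rw [hx.1]; exact ⟨le_refl _, by linarith⟩)
  · exact coord_lbox (h1 k hk).1 (h1 k hk).2 (hx.2 k hk)

theorem dyc_subset_lbox (h1 : ∀ k, α k ≤ z k ∧ z k ≤ β k) : dyc v n z ⊆ lbox v n α β := by
  intro x hx
  rw [mem_dyc] at hx
  rw [mem_lbox]
  intro k
  exact coord_lbox (h1 k).1 (h1 k).2 (hx k)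

end lattice

section complex

variable {Vx B J I : Type} {e0 e1 : B → Vx} {inc : B → J → Prop} {qC : J → I → Prop} {Ω : Set V}
  {K : Cx3 e0 e1 inc qC Ω} {v : V} {n : ℕ} {U : Set V} {α β z : Fin 3 → ℤ} {l : Fin 3}

/-- the boundary of a tile which is a lattice square inside `U` -/
theorem bd_eq (L : Lat K v n U) {j : J} (hj : K.tile j = squ v ((n, z), l))
    (hU : squ v ((n, z), l) ⊆ U) : K.toCx2.bd j = sqB v n z l := by
  ext x
  rw [mem_sqB]
  constructor
  · intro hx
    obtain ⟨b, hb, hxb⟩ := mem_iUnion₂.1 hx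
    have h1 : K.arc b ⊆ squ v ((n, z), l) := hj ▸ K.toCx2.arc_subset_tile hb
    obtain ⟨w, k, hbw⟩ := L.arc b ⟨x, hxb, hU (h1 hxb)⟩
    refine ⟨w, k, ?_, hbw ▸ hxb⟩
    rw [hbw] at h1
    exact edge_subset_squ.1 h1
  · rintro ⟨w, k, hE, hx⟩
    have h1 := edge_subset_squ.2 hE hx
    obtain ⟨b, hb⟩ := L.arc' w k ⟨x, hx, hU h1⟩
    exact mem_iUnion₂.2 ⟨b, (Lat.inc_iff_edgeOfSq hb hj).2 hE, hb ▸ hx⟩

/-- the boundary of a cell which is a lattice cube inside `U` -/
theorem cell_bd_eq (L : Lat K v n U) {c : I} (hc : K.cell c = dyc v n z)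
    (hU : dyc v n z ⊆ U) : (⋃ j ∈ {j | qC j c}, K.tile j) = cuB v n z := by
  ext x
  rw [mem_cuB]
  constructor
  · intro hx
    obtain ⟨j, hj, hxj⟩ := mem_iUnion₂.1 hx
    have h1 : K.tile j ⊆ dyc v n z := hc ▸ (qC_iff K j c).1 hj
    obtain ⟨w, k, hw⟩ := L.tile j ⟨x, hxj, hU (h1 hxj)⟩
    exact ⟨w, k, hw ▸ h1, hw ▸ hxj⟩
  · rintro ⟨w, k, h1, hx⟩
    obtain ⟨j, hj⟩ := L.tile' w k ⟨x, hx, hU (h1 hx)⟩
    refine mem_iUnion₂.2 ⟨j, (qC_iff K j c).2 ?_, hj ▸ hx⟩
    rw [hj, hc]; exact h1

/-- the ends of an arc which is a lattice edge inside `U` -/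
theorem arc_ends (L : Lat K v n U) {b : B} {w : Fin 3 → ℤ} {k : Fin 3}
    (hb : K.arc b = edge v ((n, w), k)) (hU : edge v ((n, w), k) ⊆ U) :
    (K.y (e0 b) = pt v n w ∧ K.y (e1 b) = pt v n w + (1 / 2 ^ n : ℝ) • ev k) ∨
      (K.y (e1 b) = pt v n w ∧ K.y (e0 b) = pt v n w + (1 / 2 ^ n : ℝ) • ev k) := by
  have hpos : (0:ℝ) < 1 / 2 ^ n := by positivity
  obtain ⟨m, hmk⟩ := other_dir k
  -- a lattice point of the edge is a vertex
  have key : ∀ w' : Fin 3 → ℤ, pt v n w' ∈ edge v ((n, w), k) → ∃ u, K.y u = pt v n w' := by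
    intro w' h
    obtain ⟨b', hb'⟩ := L.arc' w' m ⟨_, left_mem_edge, hU h⟩
    have hne : b ≠ b' := by
      rintro rfl
      exact hmk (edge_inj (hb'.symm.trans hb)).2
    have h1 := K.inter b b' hne ⟨hb ▸ h, hb' ▸ left_mem_edge⟩
    obtain ⟨u, hu⟩ := h1
    exact ⟨u, hu⟩
  have e2 : pt v n w + (1 / 2 ^ n : ℝ) • ev k = pt v n (Function.update w k (w k + 1)) := by
    funext j
    by_cases hj : j = k
    · subst hj
      simp only [Pi.add_apply, Pi.smul_apply, smul_eq_mul, ev_same, mul_one]
      unfold pt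
      rw [Function.update_self]
      push_cast
      ring
    · simp only [Pi.add_apply, Pi.smul_apply, smul_eq_mul, ev_of_ne hj, mul_zero, add_zero]
      exact (pt_inj.2 (Function.update_of_ne hj _ _)).symm
  have hr : pt v n w + (1 / 2 ^ n : ℝ) • ev k ∈ edge v ((n, w), k) := right_mem_segment ℝ _ _
  obtain ⟨u, hu⟩ := key w left_mem_edge
  obtain ⟨u', hu'⟩ := key _ (e2 ▸ hr)
  rw [← e2] at hu'
  have hne : u ≠ u' := by
    rintro rfl
    have h1 := congrFun (hu.symm.trans hu') k
    simp only [Pi.add_apply, Pi.smul_apply, smul_eq_mul, ev_same, mul_one] at h1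
    linarith
  have h1 : K.y u ∈ K.arc b := by rw [hb, hu]; exact left_mem_edge
  have h2 : K.y u' ∈ K.arc b := by rw [hb, hu']; exact hr
  rcases K.mem b u h1 with h3 | h3 <;> rcases K.mem b u' h2 with h4 | h4
  · exact absurd (h3.trans h4.symm) hne
  · exact Or.inl ⟨h3 ▸ hu, h4 ▸ hu'⟩
  · exact Or.inr ⟨h3 ▸ hu, h4 ▸ hu'⟩
  · exact absurd (h3.trans h4.symm) hne

/-- a crossed edge meets the boundary in the midpoint only -/
theorem edge_inter_frontier_eq (hαβ : ∀ k, α k < β k) {w : Fin 3 → ℤ} {k : Fin 3}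
    (h : CrossZ α β w k) : edge v ((n, w), k) ∩ frontier (hbox v n α β) =
      {pt v n w + (1 / 2 / 2 ^ n : ℝ) • ev k} := by
  apply Subset.antisymm
  · rintro x ⟨hx1, hx2⟩
    rw [mem_singleton_iff]
    rw [mem_edge] at hx1
    rw [mem_frontier_hbox] at hx2
    have hk : x k = v k + (w k + 1 / 2) / 2 ^ n := by
      obtain ⟨m, hm⟩ := hx2.2
      have hmk : m = k := by
        by_contra hmk
        rw [hx1.1 m hmk] at hm
        rcases hm with hm | hm
        · exact pt_ne_hp hm
        · exact pt_ne_hp hm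
      subst hmk
      rcases hm with hm | hm
      · have h1 := range_of_mem (α := α) (β := α) hx1.2 ⟨hm.ge, hm.le⟩
        have h2 : w m = α m := le_antisymm h1.2 h1.1
        rw [hm, h2]; rfl
      · have h1 := range_of_mem (α := β) (β := β) hx1.2 ⟨hm.ge, hm.le⟩
        have h2 : w m = β m := le_antisymm h1.2 h1.1
        rw [hm, h2]; rfl
    funext j
    by_cases hj : j = k
    · rw [hj, mid_apply_self, hk]
    · rw [mid_apply_ne hj, hx1.1 j hj]
  · rintro x hx
    rw [mem_singleton_iff] at hx
    rw [hx]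
    exact ⟨mid_mem_edge, mid_mem_frontier (hαβ k) h⟩

end complex

theorem specDomCut' : SpecDomCut' := by
  intro Vx B J I e0 e1 inc qC Ω K v n U L α β hαβ hbig p hcut
  have hfr : frontier (hbox v n α β) ⊆ U :=
    (isClosed_hbox.frontier_subset.trans hbox_subset_lbox).trans hbig
  have hpos : (0:ℝ) < 1 / 2 ^ n := by positivity
  -- crossed arcs
  have hcr : ∀ b, b ∈ crossed K (hbox v n α β) → K.arc b ∩ frontier (hbox v n α β) = {p b} := by
    intro b hb
    obtain ⟨w, k, h1, h2⟩ := (L.mem_crossed hαβ hfr b).1 hb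
    rw [h1, edge_inter_frontier_eq hαβ h2, hcut b w k h1 h2]
  have hncr : ∀ b, b ∉ crossed K (hbox v n α β) → K.arc b ∩ frontier (hbox v n α β) = ∅ :=
    fun b hb => not_nonempty_iff_eq_empty.1 hb
  -- boundary curve of a tile on the frontier
  have hbdj : ∀ j, K.toCx2.bd j ∩ frontier (hbox v n α β) =
      p '' {b | inc b j ∧ b ∈ crossed K (hbox v n α β)} := by
    intro j
    ext x
    constructor
    · rintro ⟨hx1, hx2⟩
      obtain ⟨b, hb, hxb⟩ := mem_iUnion₂.1 hx1
      have hbc : b ∈ crossed K (hbox v n α β) := ⟨x, hxb, hx2⟩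
      have : x ∈ K.arc b ∩ frontier (hbox v n α β) := ⟨hxb, hx2⟩
      rw [hcr b hbc] at this
      exact ⟨b, ⟨hb, hbc⟩, (mem_singleton_iff.1 this).symm⟩
    · rintro ⟨b, ⟨hb, hbc⟩, rfl⟩
      have : p b ∈ K.arc b ∩ frontier (hbox v n α β) := by
        rw [hcr b hbc]; exact mem_singleton _
      exact ⟨mem_iUnion₂.2 ⟨b, hb, this.1⟩, this.2⟩
  -- tiles
  have htile : ∀ j, (K.tile j ∩ frontier (hbox v n α β)).Nonempty →
      ConBall 1 (K.tile j ∩ frontier (hbox v n α β))
        (K.toCx2.bd j ∩ frontier (hbox v n α β)) ∧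
      ConBall 2 (K.tile j ∩ hbox v n α β)
        ((K.toCx2.bd j ∩ hbox v n α β) ∪ (K.tile j ∩ frontier (hbox v n α β))) ∧
      ConBall 2 (K.tile j \ interior (hbox v n α β))
        ((K.toCx2.bd j \ interior (hbox v n α β)) ∪ (K.tile j ∩ frontier (hbox v n α β))) := by
    intro j hne
    obtain ⟨z, l, hj⟩ := L.tile j (hne.mono (inter_subset_inter_right _ hfr))
    rw [hj] at hne
    obtain ⟨d1, d2, d3⟩ := squ_data hne
    rw [bd_eq L hj ((squ_subset_lbox d1 d2).trans hbig), hj]
    exact squ_cut hαβ d1 d2 d3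
  have htne : ∀ j, {b | inc b j ∧ b ∈ crossed K (hbox v n α β)} ≠ ∅ →
      (K.tile j ∩ frontier (hbox v n α β)).Nonempty := by
    intro j hj
    obtain ⟨b, hb, x, hx1, hx2⟩ := nonempty_iff_ne_empty.2 hj
    exact ⟨x, K.toCx2.arc_subset_tile hb hx1, hx2⟩
  have htne' : ∀ j, (K.tile j ∩ frontier (hbox v n α β)).Nonempty →
      {b | inc b j ∧ b ∈ crossed K (hbox v n α β)} ≠ ∅ := by
    intro j hj hemp
    have h1 := (htile j hj).1
    rw [hbdj, hemp, image_empty] at h1
    obtain ⟨-, φ, hφ⟩ := h1
    rw [image_empty] at hφ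
    have : (fun _ => (1:ℝ)) ∈ sphere (0 : Fin 1 → ℝ) 1 := by
      rw [sphere_fin_one]; exact Or.inr rfl
    rw [← hφ] at this
    exact this
  -- cells
  have hcell : ∀ c, (K.cell c ∩ frontier (hbox v n α β)).Nonempty →
      ConBall 2 (K.cell c ∩ frontier (hbox v n α β))
        ((⋃ j ∈ {j | qC j c}, K.tile j) ∩ frontier (hbox v n α β)) ∧
      ConBall 3 (K.cell c ∩ hbox v n α β)
        (((⋃ j ∈ {j | qC j c}, K.tile j) ∩ hbox v n α β) ∪
          (K.cell c ∩ frontier (hbox v n α β))) ∧
      ConBall 3 (K.cell c \ interior (hbox v n α β))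
        (((⋃ j ∈ {j | qC j c}, K.tile j) \ interior (hbox v n α β)) ∪
          (K.cell c ∩ frontier (hbox v n α β))) := by
    intro c hne
    obtain ⟨z, hc⟩ := L.cell c (hne.mono (inter_subset_inter_right _ hfr))
    rw [hc] at hne
    obtain ⟨d1, d3⟩ := cube_data hne
    rw [cell_bd_eq L hc ((dyc_subset_lbox d1).trans hbig), hc]
    exact cube_cut hαβ d1 d3
  have hcne : ∀ c, (∃ j, qC j c ∧ {b | inc b j ∧ b ∈ crossed K (hbox v n α β)} ≠ ∅) →
      (K.cell c ∩ frontier (hbox v n α β)).Nonempty := by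
    rintro c ⟨j, hj, hne⟩
    obtain ⟨x, hx1, hx2⟩ := htne j hne
    exact ⟨x, (qC_iff K j c).1 hj hx1, hx2⟩
  have hcne' : ∀ c, (K.cell c ∩ frontier (hbox v n α β)).Nonempty →
      ∃ j, qC j c ∧ {b | inc b j ∧ b ∈ crossed K (hbox v n α β)} ≠ ∅ := by
    intro c hne
    have h1 := (hcell c hne).1.conSphere
    obtain ⟨φ⟩ := h1
    have h2 : ((⋃ j ∈ {j | qC j c}, K.tile j) ∩ frontier (hbox v n α β)).Nonempty := by
      rw [← φ.symm.image_eq]
      exact (NormedSpace.sphere_nonempty.2 zero_le_one).image _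
    obtain ⟨x, hx1, hx2⟩ := h2
    obtain ⟨j, hj, hxj⟩ := mem_iUnion₂.1 hx1
    exact ⟨j, hj, htne' j ⟨x, hxj, hx2⟩⟩
  have ui : ∀ (c : I) (Y : Set V), (⋃ j ∈ {j | qC j c}, K.tile j) ∩ Y =
      ⋃ j ∈ {j | qC j c}, K.tile j ∩ Y := by
    intro c Y
    rw [iUnion₂_inter]
  have ud : ∀ (c : I) (Y : Set V), (⋃ j ∈ {j | qC j c}, K.tile j) \ Y =
      ⋃ j ∈ {j | qC j c}, K.tile j \ Y := by
    intro c Y
    ext x
    simp only [Set.mem_sdiff, mem_iUnion, exists_prop]
    constructor
    · rintro ⟨⟨j, h1, h2⟩, h3⟩; exact ⟨j, h1, h2, h3⟩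
    · rintro ⟨j, h1, h2, h3⟩; exact ⟨⟨j, h1, h2⟩, h3⟩
  exact
    { ball := by
        unfold hbox
        exact conBall_Icc_pi (by norm_num) fun k => hp_lt_hp.2 (hαβ k)
      sub := (hbox_subset_lbox.trans hbig).trans L.sub
      crosses :=
        { off := by
            intro b hb
            rw [image_id, Set.disjoint_iff_inter_eq_empty]
            exact hncr b hb
          on := by
            intro b hb
            rw [image_id]
            exact hcr b hb
          ends := by
            intro b hb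
            obtain ⟨w, k, h1, h2⟩ := (L.mem_crossed hαβ hfr b).1 hb
            have hsubU : edge v ((n, w), k) ⊆ U := by
              refine Subset.trans ?_ hbig
              intro x hx
              rw [mem_edge] at hx
              rw [mem_lbox]
              intro j
              by_cases hj : j = k
              · subst hj
                rcases h2.1 with h | h
                · exact coord_lbox h.ge (h ▸ (hαβ j).le) hx.2
                · exact coord_lbox (h ▸ (hαβ j).le) h.le hx.2
              · exact coord_lbox (h2.2 j hj).1.le (h2.2 j hj).2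
                  (by rw [hx.1 j hj]; exact ⟨le_refl _, by linarith⟩)
            -- position of the two ends
            have hother : ∀ j, j ≠ k → hp v n α j < pt v n w j ∧ pt v n w j < hp v n β j :=
              fun j hj => strict_flat (x := pt v n w) (h2.2 j hj).1 (h2.2 j hj).2 rfl
            have e2 : ∀ j, j ≠ k → (pt v n w + (1 / 2 ^ n : ℝ) • ev k) j = pt v n w j := by
              intro j hj; simp [ev_of_ne hj]
            have e3 : (pt v n w + (1 / 2 ^ n : ℝ) • ev k) k = pt v n w k + 1 / 2 ^ n := by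
              simp [ev_same]
            have hpos2 := half_pos' n
            have hlt := hp_lt_hp (v := v) (n := n).2 (hαβ k)
            have main : (pt v n w ∉ hbox v n α β ∧
                pt v n w + (1 / 2 ^ n : ℝ) • ev k ∈ interior (hbox v n α β)) ∨
                (pt v n w ∈ interior (hbox v n α β) ∧
                pt v n w + (1 / 2 ^ n : ℝ) • ev k ∉ hbox v n α β) := by
              by_cases hwb : w k = β k
              · right
                have ehp : hp v n w k = hp v n β k := by unfold hp; rw [hwb]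
                refine ⟨mem_interior_hbox.2 fun j => ?_, fun h => ?_⟩
                · by_cases hj : j = k
                  · subst hj
                    exact strict_flat (x := pt v n w) (hwb ▸ hαβ j) hwb.le rfl
                  · exact hother j hj
                · have := (mem_hbox.1 h k).2
                  rw [e3, pt_add_eq_hp_add, ehp] at this
                  linarith
              · left
                have hwa : w k = α k := h2.1.resolve_right hwb
                have ehp : hp v n w k = hp v n α k := by unfold hp; rw [hwa]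
                refine ⟨fun h => ?_, mem_interior_hbox.2 fun j => ?_⟩
                · have := (mem_hbox.1 h k).1
                  rw [pt_eq_hp_sub, ehp] at this
                  linarith
                · by_cases hj : j = k
                  · subst hj
                    rw [e3]
                    constructor
                    · rw [pt_add_eq_hp_add, ehp]; linarith
                    · have h5 : pt v n (fun i => w i + 1) j = pt v n w j + 1 / 2 ^ n := by
                        rw [pt_succ]; unfold pt; push_cast; ring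
                      rw [← h5]
                      exact lt_of_le_of_ne (pt_le_hp.2 (by
                        show w j + 1 ≤ β j
                        rw [hwa]; exact hαβ j)) pt_ne_hp
                  · rw [e2 j hj]; exact hother j hj
            show (K.y (e0 b) ∈ interior (hbox v n α β) ∧ K.y (e1 b) ∉ hbox v n α β) ∨
              (K.y (e1 b) ∈ interior (hbox v n α β) ∧ K.y (e0 b) ∉ hbox v n α β)
            rcases arc_ends L h1 hsubU with ⟨g1, g2⟩ | ⟨g1, g2⟩ <;> rw [g1, g2] <;>
              rcases main with ⟨m1, m2⟩ | ⟨m1, m2⟩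
            · exact Or.inr ⟨m2, m1⟩
            · exact Or.inl ⟨m1, m2⟩
            · exact Or.inl ⟨m2, m1⟩
            · exact Or.inr ⟨m1, m2⟩ }
      off_tile := by
        intro j hj
        rw [Set.disjoint_iff_inter_eq_empty]
        by_contra hne
        exact htne' j (nonempty_iff_ne_empty.2 hne) hj
      arc := by
        intro j b b' hbb hj
        have h1 := (htile j (htne j (by rw [hj]; exact (insert_nonempty b {b'}).ne_empty))).1
        rw [hbdj, hj, image_pair] at h1
        exact h1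
      tile_in := fun j hj => (htile j (htne j hj)).2.1
      tile_out := fun j hj => (htile j (htne j hj)).2.2
      off_cell := by
        intro c hc
        rw [Set.disjoint_iff_inter_eq_empty]
        by_contra hne
        obtain ⟨j, h1, h2⟩ := hcne' c (nonempty_iff_ne_empty.2 hne)
        exact h2 (hc j h1)
      disc := by
        intro c hc
        have h := (hcell c (hcne c hc)).1
        rwa [ui] at h
      cell_in := by
        intro c hc
        have h := (hcell c (hcne c hc)).2.1
        rwa [ui] at h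
      cell_out := by
        intro c hc
        have h := (hcell c (hcne c hc)).2.2
        rwa [ud] at h }

end P073.GB371
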