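import Vale.Agent.P073.GB371.Base

/-!
# P073, GB371: a closed set whose frontier meets a conical ball in a proper disc cuts the ball
-/

open Set Metric Topology Filter

namespace P073

variable {E F : Type*} [NormedAddCommGroup E] [NormedSpace ℝ E]
  [NormedAddCommGroup F] [NormedSpace ℝ F]

/-- transport of the Jordan-Schoenflies property to any sphere -/
theorem ConSphere.jordanSch {n : ℕ} {S : Set E} (hS : ConSphere n S)
    (hJ : JordanSch n (sphere (0 : Fin (n + 1) → ℝ) 1)) : JordanSch n S := by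
  obtain ⟨φ⟩ := hS
  exact hJ.transport φ.symm

/-- signed distance: negative inside `A`, positive outside -/
noncomputable def sdist (A : Set E) (x : E) : ℝ := infDist x A - infDist x (interior A)ᶜ

omit [NormedSpace ℝ E] in
theorem continuous_sdist (A : Set E) : Continuous (sdist A) :=
  (continuous_infDist_pt A).sub (continuous_infDist_pt _)

omit [NormedSpace ℝ E] in
theorem sdist_cases {A : Set E} (hA : IsClosed A) (h1 : A.Nonempty) (h2 : ((interior A)ᶜ).Nonempty)
    (x : E) : (x ∈ interior A ∧ sdist A x < 0) ∨ (x ∈ frontier A ∧ sdist A x = 0) ∨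
      (x ∉ A ∧ 0 < sdist A x) := by
  have hc : IsClosed (interior A)ᶜ := isOpen_interior.isClosed_compl
  by_cases hx : x ∈ interior A
  · left
    refine ⟨hx, ?_⟩
    have e1 : infDist x A = 0 := infDist_zero_of_mem (interior_subset hx)
    have e2 : 0 < infDist x (interior A)ᶜ := (hc.notMem_iff_infDist_pos h2).1 (fun h => h hx)
    unfold sdist; linarith
  · right
    have e2 : infDist x (interior A)ᶜ = 0 := infDist_zero_of_mem hx
    by_cases hxA : x ∈ A
    · left
      have e1 : infDist x A = 0 := infDist_zero_of_mem hxA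
      refine ⟨⟨subset_closure hxA, hx⟩, ?_⟩
      unfold sdist; rw [e1, e2]; ring
    · right
      have e1 : 0 < infDist x A := (hA.notMem_iff_infDist_pos h1).1 hxA
      refine ⟨hxA, ?_⟩
      unfold sdist; linarith

/-- **In and out**: `A` closed, `C` a conical ball with boundary `B`, `C ∩ frontier A` a conical
disc with boundary `B ∩ frontier A`, and `B` has points inside and outside `A`. -/
theorem inOut {E : Type} [NormedAddCommGroup E] [NormedSpace ℝ E] {m : ℕ} (hm : m ≠ 0)
    (hS : AmbSch m) {C B A : Set E} (hC : ConBall (m + 1) C B) (hJ : JordanSch m B)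
    (hA : IsClosed A) (hD : ConBall m (C ∩ frontier A) (B ∩ frontier A))
    (h1 : (B ∩ interior A).Nonempty) (h2 : (B \ A).Nonempty) :
    (ConBall m (B ∩ A) (B ∩ frontier A) ∧ ConBall m (B \ interior A) (B ∩ frontier A)) ∧
      ConBall (m + 1) (C ∩ A) ((B ∩ A) ∪ (C ∩ frontier A)) ∧
      ConBall (m + 1) (C \ interior A) ((B \ interior A) ∪ (C ∩ frontier A)) := by
  have hc := sdist_cases hA (h1.mono (inter_subset_right.trans interior_subset))
    (h2.mono fun x hx h => hx.2 (interior_subset h))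
  have e0 : {x : E | sdist A x = 0} = frontier A := by
    ext x
    rcases hc x with ⟨h, h'⟩ | ⟨h, h'⟩ | ⟨h, h'⟩
    · exact ⟨fun k => absurd k h'.ne, fun k => absurd h k.2⟩
    · exact ⟨fun _ => h, fun _ => h'⟩
    · exact ⟨fun k => absurd k h'.ne', fun k => absurd (hA.frontier_subset k) h⟩
  have e1 : {x : E | sdist A x ≤ 0} = A := by
    ext x
    rcases hc x with ⟨h, h'⟩ | ⟨h, h'⟩ | ⟨h, h'⟩
    · exact ⟨fun _ => interior_subset h, fun _ => h'.le⟩
    · exact ⟨fun _ => hA.frontier_subset h, fun _ => h'.le⟩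
    · exact ⟨fun k => absurd k (not_le.2 h'), fun k => absurd k h⟩
  have e2 : {x : E | 0 ≤ sdist A x} = (interior A)ᶜ := by
    ext x
    rcases hc x with ⟨h, h'⟩ | ⟨h, h'⟩ | ⟨h, h'⟩
    · exact ⟨fun k => absurd k (not_le.2 h'), fun k => absurd h k⟩
    · exact ⟨fun _ => h.2, fun _ => h'.ge⟩
    · exact ⟨fun _ => fun k => h (interior_subset k), fun _ => h'.le⟩
  have hv := continuous_sdist A
  obtain ⟨k, rfl⟩ := Nat.exists_eq_succ_of_ne_zero hm
  have hsp := split hJ (v := sdist A) (t := 0) hv.continuousOn (by rw [e0]; exact hD.conSphere)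
    (by
      obtain ⟨x, hx, hx'⟩ := h2
      refine ⟨x, hx, ?_⟩
      rcases hc x with ⟨h, -⟩ | ⟨h, -⟩ | ⟨-, h⟩
      · exact absurd (interior_subset h) hx'
      · exact absurd (hA.frontier_subset h) hx'
      · exact h)
    (by
      obtain ⟨x, hx, hx'⟩ := h1
      refine ⟨x, hx, ?_⟩
      rcases hc x with ⟨-, h⟩ | ⟨h, -⟩ | ⟨h, -⟩
      · exact h
      · exact absurd hx' h.2
      · exact absurd (interior_subset hx') h)
  have hge := cut_ge hm hS (glueSph hm) hC (v := sdist A) (t := 0) hv.continuousOn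
    (by rw [e0]; exact hD) hsp.1
  have hle := cut_le hm hS (glueSph hm) hC (v := sdist A) (t := 0) hv.continuousOn
    (by rw [e0]; exact hD) hsp.2
  rw [e0, e1, e2] at hsp
  rw [e0, e2, union_comm] at hge
  rw [e0, e1, union_comm] at hle
  exact ⟨⟨hsp.2, hsp.1⟩, hle, hge⟩

/-- in the plane nothing is assumed -/
theorem inOut_two {E : Type} [NormedAddCommGroup E] [NormedSpace ℝ E] {C B A : Set E}
    (hC : ConBall 2 C B) (hA : IsClosed A) {p q : E} (hpq : B ∩ frontier A = {p, q})
    (hD : ConBall 1 (C ∩ frontier A) {p, q})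
    (h1 : (B ∩ interior A).Nonempty) (h2 : (B \ A).Nonempty) :
    (ConBall 1 (B ∩ A) {p, q} ∧ ConBall 1 (B \ interior A) {p, q}) ∧
      ConBall 2 (C ∩ A) ((B ∩ A) ∪ (C ∩ frontier A)) ∧
      ConBall 2 (C \ interior A) ((B \ interior A) ∪ (C ∩ frontier A)) := by
  have := inOut one_ne_zero ambSch_one hC (jordanSch_one hC.conSphere) hA
    (by rw [hpq]; exact hD) h1 h2
  rw [hpq] at this
  exact this

/-- in space: input = Alexander-Schoenflies and Jordan-Schoenflies on the two-sphere -/
theorem inOut_three {E : Type} [NormedAddCommGroup E] [NormedSpace ℝ E] (hS : AmbSch 2)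
    (hJ : JordanSch 2 (sphere (0 : Fin 3 → ℝ) 1)) {C B A : Set E}
    (hC : ConBall 3 C B) (hA : IsClosed A)
    (hD : ConBall 2 (C ∩ frontier A) (B ∩ frontier A))
    (h1 : (B ∩ interior A).Nonempty) (h2 : (B \ A).Nonempty) :
    (ConBall 2 (B ∩ A) (B ∩ frontier A) ∧ ConBall 2 (B \ interior A) (B ∩ frontier A)) ∧
      ConBall 3 (C ∩ A) ((B ∩ A) ∪ (C ∩ frontier A)) ∧
      ConBall 3 (C \ interior A) ((B \ interior A) ∪ (C ∩ frontier A)) :=
  inOut two_ne_zero hS hC (hC.conSphere.jordanSch hJ) hA hD h1 h2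

/-- the two forms of the ambient Schoenflies property -/
theorem ambSch_of_forall {n : ℕ} (h : ∀ S : Set (Fin (n + 1) → ℝ), ConSphere n S →
    ∃ Φ : ConHomeo (univ : Set (Fin (n + 1) → ℝ)) (univ : Set (Fin (n + 1) → ℝ)),
      Φ.toFun '' S = sphere 0 1) : AmbSch n := by
  intro S hS
  obtain ⟨Φ, hΦ⟩ := h S hS
  refine ⟨Φ.symm, ?_⟩
  rw [← hΦ, ConHomeo.symm_toFun, image_image]
  have : ∀ x ∈ S, Φ.invFun (Φ.toFun x) = x := fun x _ => Φ.left_inv (mem_univ x)
  rw [image_congr this, image_id']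

end P073
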