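import Vale.Agent.P073.GB371.Clip
import Vale.Agent.P073.GBM.PatProof

/-!
# P073, GB371: lattice squares and cubes cut by a box with faces at half-integer positions
-/

open Set Metric Topology Filter

namespace P073.GB371

open P073 P073.PR720 P073.GB73 P073.GBM
open Vale.Agent.P073.St (V)
open Vale.Agent.P073.AB (pt edge squ EdgeOfSq)
open Vale.Agent.P073.SQ (ev)
open P073.Net (dyc)

variable {v : V} {n : ℕ} {α β z : Fin 3 → ℤ} {x : V} {k l : Fin 3}

theorem taut_one {S B R N : Prop} : ((S ∧ B) ∧ R ∨ S ∧ R ∧ N) ↔ (S ∧ R ∧ (B ∨ N)) := by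
  tauto

theorem taut_two {S B R N : Prop} : ((S ∧ B) ∧ N ∨ S ∧ R ∧ N) ↔ (S ∧ N ∧ (B ∨ R)) := by
  tauto

theorem taut_no {S A B C D : Prop} (hS : ¬ S) : ((S ∧ A) ∧ B ∨ S ∧ C) ↔ (S ∧ D) := by
  constructor
  · rintro (h | h)
    · exact absurd h.1.1 hS
    · exact absurd h.1 hS
  · intro h; exact absurd h.1 hS

theorem half_pos' (n : ℕ) : (0:ℝ) < 1 / 2 ^ n / 2 := by positivity

theorem pt_eq_hp_sub : pt v n z k = hp v n z k - 1 / 2 ^ n / 2 := by
  unfold pt hp
  have : (2:ℝ) ^ n ≠ 0 := (two_pow_pos' n).ne'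
  field_simp
  ring

theorem pt_add_eq_hp_add : pt v n z k + 1 / 2 ^ n = hp v n z k + 1 / 2 ^ n / 2 := by
  rw [pt_eq_hp_sub]; ring

theorem abs_sub_hp_le : |x k - hp v n z k| ≤ 1 / 2 ^ n / 2 ↔
    pt v n z k ≤ x k ∧ x k ≤ pt v n z k + 1 / 2 ^ n := by
  rw [pt_add_eq_hp_add, pt_eq_hp_sub, abs_le]
  constructor
  · rintro ⟨h1, h2⟩; exact ⟨by linarith, by linarith⟩
  · rintro ⟨h1, h2⟩; exact ⟨by linarith, by linarith⟩

theorem abs_sub_hp_eq : |x k - hp v n z k| = 1 / 2 ^ n / 2 ↔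
    x k = pt v n z k ∨ x k = pt v n z k + 1 / 2 ^ n := by
  rw [pt_add_eq_hp_add, pt_eq_hp_sub, abs_eq (half_pos' n).le]
  constructor
  · rintro (h | h)
    · right; linarith
    · left; linarith
  · rintro (h | h)
    · right; linarith
    · left; linarith

/-- a coordinate strictly inside -/
theorem strict_inside (h1 : α k < z k) (h2 : z k < β k)
    (hx : pt v n z k ≤ x k ∧ x k ≤ pt v n z k + 1 / 2 ^ n) :
    hp v n α k < x k ∧ x k < hp v n β k := by
  refine ⟨(lt_of_le_of_ne (hp_le_pt.2 h1) (Ne.symm pt_ne_hp)).trans_le hx.1, hx.2.trans_lt ?_⟩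
  have h3 : hp v n z k < hp v n β k := hp_lt_hp.2 h2
  have h4 : hp v n z k + 1 / 2 ^ n ≤ hp v n β k := by
    unfold hp
    have : ((z k : ℝ) + 1) ≤ β k := by exact_mod_cast h2
    have h5 : (((z k : ℝ) + 1 / 2) / 2 ^ n) + 1 / 2 ^ n ≤ ((β k : ℝ) + 1 / 2) / 2 ^ n := by
      rw [← add_div, div_le_div_iff_of_pos_right (two_pow_pos' n)]
      linarith
    linarith
  have := half_pos' n
  rw [pt_add_eq_hp_add]
  linarith

/-- a flat coordinate -/
theorem strict_flat (h1 : α l < z l) (h2 : z l ≤ β l) (hx : x l = pt v n z l) :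
    hp v n α l < x l ∧ x l < hp v n β l := by
  rw [hx]
  exact ⟨lt_of_le_of_ne (hp_le_pt.2 h1) (Ne.symm pt_ne_hp), lt_of_le_of_ne (pt_le_hp.2 h2) pt_ne_hp⟩

/-- range of the index -/
theorem range_of_mem (hx : pt v n z k ≤ x k ∧ x k ≤ pt v n z k + 1 / 2 ^ n)
    (hR : hp v n α k ≤ x k ∧ x k ≤ hp v n β k) : α k ≤ z k ∧ z k ≤ β k := by
  constructor
  · have h1 : hp v n α k ≤ pt v n z k + 1 / 2 ^ n := hR.1.trans hx.2
    rw [pt_succ] at h1
    unfold hp at h1
    rw [add_le_add_iff_left, div_le_div_iff_of_pos_right (two_pow_pos' n)] at h1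
    have h2 : (α k : ℝ) < z k + 1 := by linarith
    have h3 : α k < z k + 1 := by exact_mod_cast h2
    omega
  · exact pt_le_hp.1 (hx.1.trans hR.2)

/-- the sign of the clipping in direction `k` -/
noncomputable def sg (β z : Fin 3 → ℤ) (k : Fin 3) : ℝ := if z k = β k then 1 else -1

theorem sg_mul_sg (β z : Fin 3 → ℤ) (k : Fin 3) : sg β z k * sg β z k = 1 := by
  unfold sg; split_ifs <;> norm_num

theorem coord_iff (hαβ : α k < β k) (hz : z k = α k ∨ z k = β k)
    (hx : pt v n z k ≤ x k ∧ x k ≤ pt v n z k + 1 / 2 ^ n) :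
    ((hp v n α k ≤ x k ∧ x k ≤ hp v n β k) ↔ sg β z k * (x k - hp v n z k) ≤ 0) ∧
    ((hp v n α k < x k ∧ x k < hp v n β k) ↔ sg β z k * (x k - hp v n z k) < 0) := by
  by_cases hb : z k = β k
  · have e : hp v n z k = hp v n β k := by unfold hp; rw [hb]
    have hlow : hp v n α k < x k :=
      (lt_of_le_of_ne (hp_le_pt.2 (hb ▸ hαβ)) (Ne.symm pt_ne_hp)).trans_le hx.1
    unfold sg
    rw [if_pos hb, one_mul, e]
    refine ⟨⟨fun h => by linarith [h.2], fun h => ⟨hlow.le, by linarith⟩⟩,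
      ⟨fun h => by linarith [h.2], fun h => ⟨hlow, by linarith⟩⟩⟩
  · have ha : z k = α k := hz.resolve_right hb
    have e : hp v n z k = hp v n α k := by unfold hp; rw [ha]
    have hup : x k < hp v n β k := by
      have h4 : hp v n z k + 1 / 2 ^ n ≤ hp v n β k := by
        unfold hp
        have h5 : z k + 1 ≤ β k := by rw [ha]; exact hαβ
        have : ((z k : ℝ) + 1) ≤ β k := by exact_mod_cast h5
        have h5 : (((z k : ℝ) + 1 / 2) / 2 ^ n) + 1 / 2 ^ n ≤ ((β k : ℝ) + 1 / 2) / 2 ^ n := by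
          rw [← add_div, div_le_div_iff_of_pos_right (two_pow_pos' n)]
          linarith
        linarith
      have := half_pos' n
      have h6 := hx.2
      rw [pt_add_eq_hp_add] at h6
      linarith
    unfold sg
    rw [if_neg hb, e]
    refine ⟨⟨fun h => by linarith [h.1], fun h => ⟨by linarith, hup.le⟩⟩,
      ⟨fun h => by linarith [h.1], fun h => ⟨by linarith, hup⟩⟩⟩

theorem mem_hbox : x ∈ hbox v n α β ↔ ∀ k, hp v n α k ≤ x k ∧ x k ≤ hp v n β k := by
  unfold hbox
  exact ⟨fun h k => ⟨h.1 k, h.2 k⟩, fun h => ⟨fun k => (h k).1, fun k => (h k).2⟩⟩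

theorem mem_interior_hbox : x ∈ interior (hbox v n α β) ↔
    ∀ k, hp v n α k < x k ∧ x k < hp v n β k := by
  unfold hbox
  rw [interior_Icc_pi']
  rfl

theorem isClosed_hbox : IsClosed (hbox v n α β) := isClosed_Icc

/-- position with respect to the box, for points all of whose unclipped coordinates are strictly
inside -/
theorem pos_iff {I : Finset (Fin 3)} (hαβ : ∀ k, α k < β k)
    (hI : ∀ k ∈ I, (z k = α k ∨ z k = β k) ∧ pt v n z k ≤ x k ∧ x k ≤ pt v n z k + 1 / 2 ^ n)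
    (hI' : ∀ k ∉ I, hp v n α k < x k ∧ x k < hp v n β k) :
    (x ∈ hbox v n α β ↔ ∀ i ∈ I, sg β z i * (x i - hp v n z i) ≤ 0) ∧
    (x ∉ interior (hbox v n α β) ↔ ∃ i ∈ I, 0 ≤ sg β z i * (x i - hp v n z i)) := by
  constructor
  · rw [mem_hbox]
    constructor
    · intro h i hi
      exact ((coord_iff (hαβ i) (hI i hi).1 (hI i hi).2).1).1 (h i)
    · intro h k
      by_cases hk : k ∈ I
      · exact ((coord_iff (hαβ k) (hI k hk).1 (hI k hk).2).1).2 (h k hk)
      · exact ⟨(hI' k hk).1.le, (hI' k hk).2.le⟩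
  · rw [mem_interior_hbox]
    constructor
    · intro h
      by_contra hcon
      push Not at hcon
      apply h
      intro k
      by_cases hk : k ∈ I
      · exact ((coord_iff (hαβ k) (hI k hk).1 (hI k hk).2).2).2 (hcon k hk)
      · exact hI' k hk
    · rintro ⟨i, hi, h⟩ h'
      exact absurd (((coord_iff (hαβ i) (hI i hi).1 (hI i hi).2).2).1 (h' i)) (not_lt.2 h)

theorem frontier_iff' : x ∈ frontier (hbox v n α β) ↔
    x ∈ hbox v n α β ∧ x ∉ interior (hbox v n α β) := by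
  rw [isClosed_hbox.frontier_eq]; rfl

/-- the boundary curve of the lattice square -/
def sqB (v : V) (n : ℕ) (z : Fin 3 → ℤ) (l : Fin 3) : Set V :=
  {x | x ∈ squ v ((n, z), l) ∧ ∃ k, k ≠ l ∧ (x k = pt v n z k ∨ x k = pt v n z k + 1 / 2 ^ n)}

/-- **Cut squares** -/
theorem squ_cut (hαβ : ∀ k, α k < β k) (h1 : ∀ k, k ≠ l → α k ≤ z k ∧ z k ≤ β k)
    (h2 : α l < z l ∧ z l ≤ β l) (h3 : ∃ k, k ≠ l ∧ (z k = α k ∨ z k = β k)) :
    ConBall 1 (squ v ((n, z), l) ∩ frontier (hbox v n α β))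
      (sqB v n z l ∩ frontier (hbox v n α β)) ∧
    ConBall 2 (squ v ((n, z), l) ∩ hbox v n α β)
      ((sqB v n z l ∩ hbox v n α β) ∪ (squ v ((n, z), l) ∩ frontier (hbox v n α β))) ∧
    ConBall 2 (squ v ((n, z), l) \ interior (hbox v n α β))
      ((sqB v n z l \ interior (hbox v n α β)) ∪
        (squ v ((n, z), l) ∩ frontier (hbox v n α β))) := by
  classical
  let I : Finset (Fin 3) := Finset.univ.filter fun k => k ≠ l ∧ (z k = α k ∨ z k = β k)
  have memI : ∀ k, k ∈ I ↔ k ≠ l ∧ (z k = α k ∨ z k = β k) := fun k => by simp [I]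
  have hI : I.Nonempty := by
    obtain ⟨k, hk⟩ := h3; exact ⟨k, (memI k).2 hk⟩
  have hlI : l ∉ I := fun h => ((memI l).1 h).1 rfl
  let c : V := fun k => if k = l then pt v n z k else hp v n z k
  have cl : c l = pt v n z l := by simp [c]
  have ck : ∀ k, k ≠ l → c k = hp v n z k := fun k hk => by simp [c, hk]
  obtain ⟨g1, g2, g3⟩ := clip_face (c := c) (σ := sg β z) (h := 1 / 2 ^ n / 2) (l := l)
    one_ne_zero (half_pos' n) (sg_mul_sg β z) hI hlI
  have hC : ∀ x : V, (x l = c l ∧ ∀ k, k ≠ l → |x k - c k| ≤ 1 / 2 ^ n / 2) ↔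
      x ∈ squ v ((n, z), l) := by
    intro x
    rw [mem_squ, cl]
    refine and_congr_right fun _ => forall_congr' fun k => forall_congr' fun hk => ?_
    rw [ck k hk, abs_sub_hp_le]
  have hB : ∀ x : V, (∃ k, k ≠ l ∧ |x k - c k| = 1 / 2 ^ n / 2) ↔
      ∃ k, k ≠ l ∧ (x k = pt v n z k ∨ x k = pt v n z k + 1 / 2 ^ n) := by
    intro x
    refine exists_congr fun k => and_congr_right fun hk => ?_
    rw [ck k hk, abs_sub_hp_eq]
  have hsub : ∀ x ∈ squ v ((n, z), l),
      (x ∈ hbox v n α β ↔ ∀ i ∈ I, sg β z i * (x i - c i) ≤ 0) ∧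
      (x ∉ interior (hbox v n α β) ↔ ∃ i ∈ I, 0 ≤ sg β z i * (x i - c i)) := by
    intro x hx
    rw [mem_squ] at hx
    have hp1 := pos_iff (x := x) (v := v) (n := n) (z := z) (I := I) hαβ
      (fun k hk => ⟨((memI k).1 hk).2, hx.2 k ((memI k).1 hk).1⟩)
      (fun k hk => by
        by_cases hkl : k = l
        · subst hkl
          exact strict_flat h2.1 h2.2 hx.1
        · have h4 : ¬ (z k = α k ∨ z k = β k) := fun h => hk ((memI k).2 ⟨hkl, h⟩)
          push Not at h4
          exact strict_inside (lt_of_le_of_ne (h1 k hkl).1 (Ne.symm h4.1))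
            (lt_of_le_of_ne (h1 k hkl).2 h4.2) (hx.2 k hkl))
    constructor
    · rw [hp1.1]
      refine forall_congr' fun i => forall_congr' fun hi => ?_
      rw [ck i ((memI i).1 hi).1]
    · rw [hp1.2]
      refine exists_congr fun i => and_congr_right fun hi => ?_
      rw [ck i ((memI i).1 hi).1]
  refine ⟨?_, ?_, ?_⟩
  · convert g1 using 1
    · ext x
      rw [mem_ofPred_eq, hC x, mem_inter_iff, frontier_iff']
      refine and_congr_right fun hx => ?_
      rw [(hsub x hx).1, (hsub x hx).2]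
    · ext x
      rw [mem_ofPred_eq, hC x, hB x, mem_inter_iff, frontier_iff']
      refine and_congr_right fun hx => ?_
      rw [(hsub x hx.1).1, (hsub x hx.1).2]
  · convert g2 using 1
    · ext x
      rw [mem_ofPred_eq, hC x, mem_inter_iff]
      refine and_congr_right fun hx => ?_
      rw [(hsub x hx).1]
    · ext x
      rw [mem_ofPred_eq, hC x, hB x, mem_union, mem_inter_iff, mem_inter_iff, frontier_iff']
      unfold sqB
      rw [mem_ofPred_eq]
      by_cases hx : x ∈ squ v ((n, z), l)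
      · rw [← (hsub x hx).1, ← (hsub x hx).2]
        exact taut_one
      · exact taut_no hx
  · convert g3 using 1
    · ext x
      rw [mem_ofPred_eq, hC x, Set.mem_sdiff]
      refine and_congr_right fun hx => ?_
      rw [(hsub x hx).2]
    · ext x
      rw [mem_ofPred_eq, hC x, hB x, mem_union, Set.mem_sdiff, mem_inter_iff, frontier_iff']
      unfold sqB
      rw [mem_ofPred_eq]
      by_cases hx : x ∈ squ v ((n, z), l)
      · rw [← (hsub x hx).1, ← (hsub x hx).2]
        exact taut_two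
      · exact taut_no hx

/-- the surface of the lattice cube -/
def cuB (v : V) (n : ℕ) (z : Fin 3 → ℤ) : Set V :=
  {x | x ∈ dyc v n z ∧ ∃ k, (x k = pt v n z k ∨ x k = pt v n z k + 1 / 2 ^ n)}

theorem mem_dyc : x ∈ dyc v n z ↔ ∀ k, pt v n z k ≤ x k ∧ x k ≤ pt v n z k + 1 / 2 ^ n := by
  unfold dyc
  simp only [mem_ofPred_eq, pt_succ]
  rfl

/-- **Cut cubes** -/
theorem cube_cut (hαβ : ∀ k, α k < β k) (h1 : ∀ k, α k ≤ z k ∧ z k ≤ β k)
    (h3 : ∃ k, z k = α k ∨ z k = β k) :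
    ConBall 2 (dyc v n z ∩ frontier (hbox v n α β)) (cuB v n z ∩ frontier (hbox v n α β)) ∧
    ConBall 3 (dyc v n z ∩ hbox v n α β)
      ((cuB v n z ∩ hbox v n α β) ∪ (dyc v n z ∩ frontier (hbox v n α β))) ∧
    ConBall 3 (dyc v n z \ interior (hbox v n α β))
      ((cuB v n z \ interior (hbox v n α β)) ∪ (dyc v n z ∩ frontier (hbox v n α β))) := by
  classical
  let I : Finset (Fin 3) := Finset.univ.filter fun k => (z k = α k ∨ z k = β k)
  have memI : ∀ k, k ∈ I ↔ (z k = α k ∨ z k = β k) := fun k => by simp [I]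
  have hI : I.Nonempty := by
    obtain ⟨k, hk⟩ := h3; exact ⟨k, (memI k).2 hk⟩
  obtain ⟨g1, g2, g3⟩ := clip_box (n := 2) (c := hp v n z) (σ := sg β z) (h := 1 / 2 ^ n / 2)
    two_ne_zero (half_pos' n) (sg_mul_sg β z) hI
  have hC : ∀ x : V, (∀ k, |x k - hp v n z k| ≤ 1 / 2 ^ n / 2) ↔ x ∈ dyc v n z := by
    intro x
    rw [mem_dyc]
    exact forall_congr' fun k => abs_sub_hp_le
  have hB : ∀ x : V, (∃ k, |x k - hp v n z k| = 1 / 2 ^ n / 2) ↔
      ∃ k, (x k = pt v n z k ∨ x k = pt v n z k + 1 / 2 ^ n) := by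
    intro x
    exact exists_congr fun k => abs_sub_hp_eq
  have hsub : ∀ x ∈ dyc v n z,
      (x ∈ hbox v n α β ↔ ∀ i ∈ I, sg β z i * (x i - hp v n z i) ≤ 0) ∧
      (x ∉ interior (hbox v n α β) ↔ ∃ i ∈ I, 0 ≤ sg β z i * (x i - hp v n z i)) := by
    intro x hx
    rw [mem_dyc] at hx
    refine pos_iff (x := x) (v := v) (n := n) (z := z) (I := I) hαβ
      (fun k hk => ⟨(memI k).1 hk, hx k⟩) (fun k hk => ?_)
    have h4 : ¬ (z k = α k ∨ z k = β k) := fun h => hk ((memI k).2 h)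
    push Not at h4
    exact strict_inside (lt_of_le_of_ne (h1 k).1 (Ne.symm h4.1))
      (lt_of_le_of_ne (h1 k).2 h4.2) (hx k)
  refine ⟨?_, ?_, ?_⟩
  · convert g1 using 1
    · ext x
      rw [mem_ofPred_eq, hC x, mem_inter_iff, frontier_iff']
      refine and_congr_right fun hx => ?_
      rw [(hsub x hx).1, (hsub x hx).2]
    · ext x
      rw [mem_ofPred_eq, hC x, hB x, mem_inter_iff, frontier_iff']
      refine and_congr_right fun hx => ?_
      rw [(hsub x hx.1).1, (hsub x hx.1).2]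
  · convert g2 using 1
    · ext x
      rw [mem_ofPred_eq, hC x, mem_inter_iff]
      refine and_congr_right fun hx => ?_
      rw [(hsub x hx).1]
    · ext x
      rw [mem_ofPred_eq, hC x, hB x, mem_union, mem_inter_iff, mem_inter_iff, frontier_iff']
      unfold cuB
      rw [mem_ofPred_eq]
      by_cases hx : x ∈ dyc v n z
      · rw [← (hsub x hx).1, ← (hsub x hx).2]
        exact taut_one
      · exact taut_no hx
  · convert g3 using 1
    · ext x
      rw [mem_ofPred_eq, hC x, Set.mem_sdiff]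
      refine and_congr_right fun hx => ?_
      rw [(hsub x hx).2]
    · ext x
      rw [mem_ofPred_eq, hC x, hB x, mem_union, Set.mem_sdiff, mem_inter_iff, frontier_iff']
      unfold cuB
      rw [mem_ofPred_eq]
      by_cases hx : x ∈ dyc v n z
      · rw [← (hsub x hx).1, ← (hsub x hx).2]
        exact taut_two
      · exact taut_no hx

end P073.GB371
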