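import Vale.Agent.P073.GB371.Theta

/-!
# P073, GB371: clipped cubes are half cubes
-/

open Set Metric Topology Filter

namespace P073

/-- apply a planar map to two coordinates -/
def pairMap {n : ℕ} (i j : Fin n) (f : (Fin 2 → ℝ) → (Fin 2 → ℝ)) (v : Fin n → ℝ) : Fin n → ℝ :=
  fun k => if k = i then f ![v i, v j] 0 else if k = j then f ![v i, v j] 1 else v k

section pair

variable {n : ℕ} {i j : Fin n}

theorem pairMap_left (f : (Fin 2 → ℝ) → (Fin 2 → ℝ)) (v : Fin n → ℝ) :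
    pairMap i j f v i = f ![v i, v j] 0 := by simp [pairMap]

theorem pairMap_right (hij : i ≠ j) (f : (Fin 2 → ℝ) → (Fin 2 → ℝ)) (v : Fin n → ℝ) :
    pairMap i j f v j = f ![v i, v j] 1 := by simp [pairMap, hij.symm]

theorem pairMap_other {k : Fin n} (hi : k ≠ i) (hj : k ≠ j) (f : (Fin 2 → ℝ) → (Fin 2 → ℝ))
    (v : Fin n → ℝ) : pairMap i j f v k = v k := by simp [pairMap, hi, hj]

theorem pairMap_pairMap (hij : i ≠ j) {f g : (Fin 2 → ℝ) → (Fin 2 → ℝ)} (v : Fin n → ℝ)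
    (h : g (f ![v i, v j]) = ![v i, v j]) : pairMap i j g (pairMap i j f v) = v := by
  have e : (![pairMap i j f v i, pairMap i j f v j] : Fin 2 → ℝ) = f ![v i, v j] := by
    rw [pairMap_left, pairMap_right hij]
    funext a
    fin_cases a <;> rfl
  funext k
  by_cases hi : k = i
  · subst hi
    rw [pairMap_left, e, h]; rfl
  · by_cases hj : k = j
    · subst hj
      rw [pairMap_right hij, e, h]; rfl
    · rw [pairMap_other hi hj, pairMap_other hi hj]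

theorem pair_mem {v : Fin n → ℝ} (hv : v ∈ closedBall (0 : Fin n → ℝ) 1) :
    (![v i, v j] : Fin 2 → ℝ) ∈ closedBall (0 : Fin 2 → ℝ) 1 := by
  rw [mem_closedBall_pi'] at hv ⊢
  rw [Fin.forall_fin_two]
  exact ⟨hv i, hv j⟩

theorem pairMap_mem (hij : i ≠ j) {f : (Fin 2 → ℝ) → (Fin 2 → ℝ)}
    (hf : MapsTo f (closedBall 0 1) (closedBall 0 1)) {v : Fin n → ℝ}
    (hv : v ∈ closedBall (0 : Fin n → ℝ) 1) : pairMap i j f v ∈ closedBall (0 : Fin n → ℝ) 1 := by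
  have h := (mem_closedBall_pi' _).1 (hf (pair_mem (i := i) (j := j) hv))
  rw [mem_closedBall_pi'] at hv ⊢
  intro k
  by_cases hi : k = i
  · subst hi; rw [pairMap_left]; exact h 0
  · by_cases hj : k = j
    · subst hj; rw [pairMap_right hij]; exact h 1
    · rw [pairMap_other hi hj]; exact hv k

theorem continuousOn_pairMap {f : (Fin 2 → ℝ) → (Fin 2 → ℝ)}
    (hf : ContinuousOn f (closedBall 0 1)) :
    ContinuousOn (pairMap i j f) (closedBall (0 : Fin n → ℝ) 1) := by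
  have hp : ContinuousOn (fun v : Fin n → ℝ => f ![v i, v j]) (closedBall 0 1) := by
    refine hf.comp ?_ fun v hv => pair_mem hv
    apply Continuous.continuousOn
    refine continuous_pi fun a => ?_
    fin_cases a
    · exact continuous_apply i
    · exact continuous_apply j
  refine continuousOn_pi.2 fun k => ?_
  by_cases hi : k = i
  · subst hi
    exact ((continuous_apply 0).comp_continuousOn hp).congr fun v _ => pairMap_left f v
  · by_cases hj : k = j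
    · subst hj
      refine ((continuous_apply 1).comp_continuousOn hp).congr fun v _ => ?_
      exact pairMap_right (Ne.symm hi) f v
    · exact (continuous_apply k).continuousOn.congr fun v _ => pairMap_other hi hj f v

theorem conicalOn_pairMap {f : (Fin 2 → ℝ) → (Fin 2 → ℝ)} (hf : ConicalOn f (closedBall 0 1)) :
    ConicalOn (pairMap i j f) (closedBall (0 : Fin n → ℝ) 1) := by
  have hX : ConicalSet (closedBall (0 : Fin n → ℝ) 1) := (locCone_closedBall_pi n 1).conicalSet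
  have hl : ConicalOn (fun v : Fin n → ℝ => (![v i, v j] : Fin 2 → ℝ)) (closedBall 0 1) := by
    intro x hx
    refine conicalWithinAt_pi (hX x hx) fun a => ?_
    fin_cases a
    · exact conicalOn_coord hX i x hx
    · exact conicalOn_coord hX j x hx
  have hlc : ContinuousOn (fun v : Fin n → ℝ => (![v i, v j] : Fin 2 → ℝ)) (closedBall 0 1) := by
    apply Continuous.continuousOn
    refine continuous_pi fun a => ?_
    fin_cases a
    · exact continuous_apply i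
    · exact continuous_apply j
  have hp : ConicalOn (fun v : Fin n → ℝ => f ![v i, v j]) (closedBall 0 1) :=
    hf.comp hl (fun v hv => pair_mem hv) hlc
  intro x hx
  refine conicalWithinAt_pi (hX x hx) fun k => ?_
  by_cases hi : k = i
  · subst hi
    have h1 := hp.linear_comp (LinearMap.proj 0 : (Fin 2 → ℝ) →ₗ[ℝ] ℝ) x hx
    exact h1.congr_of_eqOn (fun v _ => pairMap_left f v) hx
  · by_cases hj : k = j
    · subst hj
      have h1 := hp.linear_comp (LinearMap.proj 1 : (Fin 2 → ℝ) →ₗ[ℝ] ℝ) x hx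
      exact h1.congr_of_eqOn (fun v _ => pairMap_right (Ne.symm hi) f v) hx
    · exact (conicalOn_coord hX k x hx).congr_of_eqOn (fun v _ => pairMap_other hi hj f v) hx

/-- a planar conical homeomorphism of the square applied to two coordinates of the cube -/
def pairCube (hij : i ≠ j)
    (Θ : ConHomeo (closedBall (0 : Fin 2 → ℝ) 1) (closedBall (0 : Fin 2 → ℝ) 1)) :
    ConHomeo (closedBall (0 : Fin n → ℝ) 1) (closedBall (0 : Fin n → ℝ) 1) where
  toFun := pairMap i j Θ.toFun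
  invFun := pairMap i j Θ.invFun
  mapsTo := fun _ hv => pairMap_mem hij Θ.mapsTo hv
  mapsTo_inv := fun _ hv => pairMap_mem hij Θ.mapsTo_inv hv
  left_inv := fun v hv => pairMap_pairMap hij v (Θ.left_inv (pair_mem hv))
  right_inv := fun v hv => pairMap_pairMap hij v (Θ.right_inv (pair_mem hv))
  cont := continuousOn_pairMap Θ.cont
  cont_inv := continuousOn_pairMap Θ.cont_inv
  conical := conicalOn_pairMap Θ.conical

theorem pairCube_sphere (hij : i ≠ j)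
    (Θ : ConHomeo (closedBall (0 : Fin 2 → ℝ) 1) (closedBall (0 : Fin 2 → ℝ) 1))
    (hΘ : ∀ x ∈ closedBall (0 : Fin 2 → ℝ) 1, ‖Θ.toFun x‖ = ‖x‖) {v : Fin n → ℝ}
    (hv : v ∈ closedBall (0 : Fin n → ℝ) 1) :
    (pairCube hij Θ).toFun v ∈ sphere (0 : Fin n → ℝ) 1 ↔ v ∈ sphere (0 : Fin n → ℝ) 1 := by
  have hm := pairMap_mem hij Θ.mapsTo hv
  show pairMap i j Θ.toFun v ∈ sphere (0 : Fin n → ℝ) 1 ↔ _
  have hp := pair_mem (i := i) (j := j) hv
  have key : Θ.toFun ![v i, v j] ∈ sphere (0 : Fin 2 → ℝ) 1 ↔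
      (![v i, v j] : Fin 2 → ℝ) ∈ sphere (0 : Fin 2 → ℝ) 1 := by
    rw [mem_sphere_zero_iff_norm, mem_sphere_zero_iff_norm, hΘ _ hp]
  rw [mem_sphere_pi', mem_sphere_pi', Fin.forall_fin_two, Fin.exists_fin_two, Fin.forall_fin_two,
    Fin.exists_fin_two] at key
  have hp1 := (mem_closedBall_pi' _).1 (Θ.mapsTo hp)
  rw [mem_closedBall_pi'] at hm hv
  rw [mem_sphere_pi', mem_sphere_pi']
  have key' : (|Θ.toFun ![v i, v j] 0| = 1 ∨ |Θ.toFun ![v i, v j] 1| = 1) ↔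
      (|v i| = 1 ∨ |v j| = 1) := by
    constructor
    · intro h; exact (key.1 ⟨⟨hp1 0, hp1 1⟩, h⟩).2
    · intro h; exact (key.2 ⟨⟨hv i, hv j⟩, h⟩).2
  constructor
  · rintro ⟨-, k, hk⟩
    refine ⟨hv, ?_⟩
    by_cases hi : k = i
    · subst hi
      rw [pairMap_left] at hk
      rcases key'.1 (Or.inl hk) with h | h
      · exact ⟨_, h⟩
      · exact ⟨_, h⟩
    · by_cases hj : k = j
      · subst hj
        rw [pairMap_right (Ne.symm hi)] at hk
        rcases key'.1 (Or.inr hk) with h | h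
        · exact ⟨_, h⟩
        · exact ⟨_, h⟩
      · rw [pairMap_other hi hj] at hk
        exact ⟨k, hk⟩
  · rintro ⟨-, k, hk⟩
    refine ⟨hm, ?_⟩
    have h2 : |v i| = 1 ∨ |v j| = 1 → ∃ k, |pairMap i j Θ.toFun v k| = 1 := by
      intro h
      rcases key'.2 h with h | h
      · exact ⟨i, by rw [pairMap_left]; exact h⟩
      · exact ⟨j, by rw [pairMap_right hij]; exact h⟩
    by_cases hi : k = i
    · subst hi; exact h2 (Or.inl hk)
    · by_cases hj : k = j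
      · subst hj; exact h2 (Or.inr hk)
      · exact ⟨k, by rw [pairMap_other hi hj]; exact hk⟩

end pair

/-- exchange of two coordinates -/
def swapCube {n : ℕ} (i j : Fin n) :
    ConHomeo (closedBall (0 : Fin n → ℝ) 1) (closedBall (0 : Fin n → ℝ) 1) where
  toFun := fun v k => v (Equiv.swap i j k)
  invFun := fun v k => v (Equiv.swap i j k)
  mapsTo := fun v hv => (mem_closedBall_pi' _).2 fun k => (mem_closedBall_pi' _).1 hv _
  mapsTo_inv := fun v hv => (mem_closedBall_pi' _).2 fun k => (mem_closedBall_pi' _).1 hv _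
  left_inv := fun v _ => by funext k; simp
  right_inv := fun v _ => by funext k; simp
  cont := by fun_prop
  cont_inv := by fun_prop
  conical := by
    have hX : ConicalSet (closedBall (0 : Fin n → ℝ) 1) := (locCone_closedBall_pi n 1).conicalSet
    intro x hx
    exact conicalWithinAt_pi (hX x hx) fun k => conicalOn_coord hX _ x hx

/-- **Straightening.** -/
theorem exists_straighten {n : ℕ} (I : Finset (Fin (n + 1))) (hI : I.Nonempty) :
    ∃ Ψ : ConHomeo (closedBall (0 : Fin (n + 1) → ℝ) 1) (closedBall (0 : Fin (n + 1) → ℝ) 1),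
      (∀ x ∈ closedBall (0 : Fin (n + 1) → ℝ) 1, (Ψ.toFun x ∈ sphere (0 : Fin (n + 1) → ℝ) 1 ↔
        x ∈ sphere (0 : Fin (n + 1) → ℝ) 1)) ∧
      (∀ x ∈ closedBall (0 : Fin (n + 1) → ℝ) 1, (Ψ.toFun x 0 ≤ 0 ↔ ∀ i ∈ I, x i ≤ 0)) ∧
      (∀ x ∈ closedBall (0 : Fin (n + 1) → ℝ) 1, (0 ≤ Ψ.toFun x 0 ↔ ∃ i ∈ I, 0 ≤ x i)) := by
  obtain ⟨Θ, t1, t2, t3⟩ := exists_theta
  induction hI using Finset.Nonempty.cons_induction with
  | singleton a =>
    refine ⟨swapCube a 0, ?_, ?_, ?_⟩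
    · intro x hx
      have h1 := (mem_closedBall_pi' _).1 ((swapCube a 0).mapsTo hx)
      rw [mem_sphere_pi', mem_sphere_pi']
      constructor
      · rintro ⟨-, k, hk⟩
        exact ⟨(mem_closedBall_pi' _).1 hx, _, hk⟩
      · rintro ⟨-, k, hk⟩
        refine ⟨h1, Equiv.swap a 0 k, ?_⟩
        show |x (Equiv.swap a 0 (Equiv.swap a 0 k))| = 1
        rw [Equiv.swap_apply_self]; exact hk
    · intro x _
      show x (Equiv.swap a 0 0) ≤ 0 ↔ _
      rw [Equiv.swap_apply_right]; simp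
    · intro x _
      show 0 ≤ x (Equiv.swap a 0 0) ↔ _
      rw [Equiv.swap_apply_right]; simp
  | cons a s ha hs ih =>
    obtain ⟨Ψ, h1, h2, h3⟩ := ih
    obtain ⟨j, hj⟩ := hs
    have hja : j ≠ a := fun h => ha (h ▸ hj)
    refine ⟨(pairCube hja Θ).trans Ψ, ?_, ?_, ?_⟩
    · intro x hx
      show Ψ.toFun ((pairCube hja Θ).toFun x) ∈ _ ↔ _
      rw [h1 _ ((pairCube hja Θ).mapsTo hx), pairCube_sphere hja Θ t1 hx]
    · intro x hx
      show Ψ.toFun ((pairCube hja Θ).toFun x) 0 ≤ 0 ↔ _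
      rw [h2 _ ((pairCube hja Θ).mapsTo hx)]
      have hp := t2 _ (pair_mem (i := j) (j := a) hx)
      have e1 : ∀ i ∈ s, i ≠ j → (pairCube hja Θ).toFun x i = x i := fun i hi hij =>
        pairMap_other hij (by rintro rfl; exact ha hi) _ _
      have e2 : (pairCube hja Θ).toFun x j = Θ.toFun ![x j, x a] 0 := pairMap_left _ _
      constructor
      · intro h i hi
        have hj' := h j hj
        rw [e2, hp] at hj'
        rcases Finset.mem_cons.1 hi with rfl | hi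
        · exact hj'.2
        · by_cases hij : i = j
          · rw [hij]; exact hj'.1
          · rw [← e1 i hi hij]; exact h i hi
      · intro h i hi
        by_cases hij : i = j
        · rw [hij, e2, hp]
          exact ⟨h j (Finset.mem_cons.2 (Or.inr hj)), h a (Finset.mem_cons.2 (Or.inl rfl))⟩
        · rw [e1 i hi hij]; exact h i (Finset.mem_cons.2 (Or.inr hi))
    · intro x hx
      show 0 ≤ Ψ.toFun ((pairCube hja Θ).toFun x) 0 ↔ _
      rw [h3 _ ((pairCube hja Θ).mapsTo hx)]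
      have hp := t3 _ (pair_mem (i := j) (j := a) hx)
      have e1 : ∀ i ∈ s, i ≠ j → (pairCube hja Θ).toFun x i = x i := fun i hi hij =>
        pairMap_other hij (by rintro rfl; exact ha hi) _ _
      have e2 : (pairCube hja Θ).toFun x j = Θ.toFun ![x j, x a] 0 := pairMap_left _ _
      constructor
      · rintro ⟨i, hi, h⟩
        by_cases hij : i = j
        · rw [hij, e2, hp] at h
          rcases h with h | h
          · exact ⟨j, Finset.mem_cons.2 (Or.inr hj), h⟩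
          · exact ⟨a, Finset.mem_cons.2 (Or.inl rfl), h⟩
        · rw [e1 i hi hij] at h
          exact ⟨i, Finset.mem_cons.2 (Or.inr hi), h⟩
      · rintro ⟨i, hi, h⟩
        rcases Finset.mem_cons.1 hi with rfl | hi
        · exact ⟨j, hj, by rw [e2, hp]; exact Or.inr h⟩
        · by_cases hij : i = j
          · exact ⟨j, hj, by rw [e2, hp]; left; rw [← hij]; exact h⟩
          · exact ⟨i, hi, by rw [e1 i hi hij]; exact h⟩

/-- **Clipped cubes.**  In `[-1,1]^(n+1)`, `n ≥ 1`: the disc, the clipped cube, the complement. -/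
theorem conBall_clip {n : ℕ} (hn : n ≠ 0) (I : Finset (Fin (n + 1))) (hI : I.Nonempty) :
    ConBall n {x | x ∈ closedBall (0 : Fin (n + 1) → ℝ) 1 ∧ (∀ i ∈ I, x i ≤ 0) ∧ ∃ i ∈ I, 0 ≤ x i}
      {x | x ∈ sphere (0 : Fin (n + 1) → ℝ) 1 ∧ (∀ i ∈ I, x i ≤ 0) ∧ ∃ i ∈ I, 0 ≤ x i} ∧
    ConBall (n + 1) {x | x ∈ closedBall (0 : Fin (n + 1) → ℝ) 1 ∧ ∀ i ∈ I, x i ≤ 0}
      {x | x ∈ closedBall (0 : Fin (n + 1) → ℝ) 1 ∧ (∀ i ∈ I, x i ≤ 0) ∧
        (x ∈ sphere (0 : Fin (n + 1) → ℝ) 1 ∨ ∃ i ∈ I, 0 ≤ x i)} ∧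
    ConBall (n + 1) {x | x ∈ closedBall (0 : Fin (n + 1) → ℝ) 1 ∧ ∃ i ∈ I, 0 ≤ x i}
      {x | x ∈ closedBall (0 : Fin (n + 1) → ℝ) 1 ∧ (∃ i ∈ I, 0 ≤ x i) ∧
        (x ∈ sphere (0 : Fin (n + 1) → ℝ) 1 ∨ ∀ i ∈ I, x i ≤ 0)} := by
  obtain ⟨Ψ, h1, h2, h3⟩ := exists_straighten I hI
  have him : ∀ X Y : Set (Fin (n + 1) → ℝ), (∀ x ∈ X, x ∈ closedBall (0 : Fin (n + 1) → ℝ) 1) →
      Y ⊆ closedBall 0 1 →
      (∀ x ∈ closedBall (0 : Fin (n + 1) → ℝ) 1, (Ψ.toFun x ∈ Y ↔ x ∈ X)) →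
      Ψ.invFun '' Y = X := by
    intro X Y hX hY h
    ext x
    constructor
    · rintro ⟨y, hy, rfl⟩
      have hy' := hY hy
      rw [← h _ (Ψ.mapsTo_inv hy'), Ψ.right_inv hy']
      exact hy
    · intro hx
      exact ⟨Ψ.toFun x, (h x (hX x hx)).2 hx, Ψ.left_inv (hX x hx)⟩
  have hs : sphere (0 : Fin (n + 1) → ℝ) 1 ⊆ closedBall 0 1 := sphere_subset_closedBall
  refine ⟨?_, ?_, ?_⟩
  · have h := (conBall_eqDisc hn).image Ψ.symm inter_subset_left
    rw [ConHomeo.symm_toFun] at h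
    rw [him {x | x ∈ closedBall (0 : Fin (n + 1) → ℝ) 1 ∧ (∀ i ∈ I, x i ≤ 0) ∧ ∃ i ∈ I, 0 ≤ x i}
        (eqDisc n) (fun x hx => hx.1) inter_subset_left,
      him {x | x ∈ sphere (0 : Fin (n + 1) → ℝ) 1 ∧ (∀ i ∈ I, x i ≤ 0) ∧ ∃ i ∈ I, 0 ≤ x i}
        (eqN n) (fun x hx => hs hx.1) (inter_subset_left.trans hs)] at h
    · exact h
    · intro x hx
      show (Ψ.toFun x ∈ sphere (0 : Fin (n + 1) → ℝ) 1 ∧ Ψ.toFun x 0 = 0) ↔
        (x ∈ sphere (0 : Fin (n + 1) → ℝ) 1 ∧ (∀ i ∈ I, x i ≤ 0) ∧ ∃ i ∈ I, 0 ≤ x i)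
      rw [h1 x hx, ← h2 x hx, ← h3 x hx, le_antisymm_iff]
    · intro x hx
      show (Ψ.toFun x ∈ closedBall (0 : Fin (n + 1) → ℝ) 1 ∧ Ψ.toFun x 0 = 0) ↔
        (x ∈ closedBall (0 : Fin (n + 1) → ℝ) 1 ∧ (∀ i ∈ I, x i ≤ 0) ∧ ∃ i ∈ I, 0 ≤ x i)
      rw [← h2 x hx, ← h3 x hx, le_antisymm_iff]
      exact ⟨fun h => ⟨hx, h.2⟩, fun h => ⟨Ψ.mapsTo hx, h.2⟩⟩
  · have h := (conBall_halfD n).image Ψ.symm inter_subset_left
    rw [ConHomeo.symm_toFun] at h
    rw [him {x | x ∈ closedBall (0 : Fin (n + 1) → ℝ) 1 ∧ ∀ i ∈ I, x i ≤ 0}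
        (halfD n) (fun x hx => hx.1) inter_subset_left,
      him {x | x ∈ closedBall (0 : Fin (n + 1) → ℝ) 1 ∧ (∀ i ∈ I, x i ≤ 0) ∧
        (x ∈ sphere (0 : Fin (n + 1) → ℝ) 1 ∨ ∃ i ∈ I, 0 ≤ x i)}
        (hemiD n ∪ eqDisc n) (fun x hx => hx.1)
        (union_subset (inter_subset_left.trans hs) inter_subset_left)] at h
    · exact h
    · intro x hx
      show ((Ψ.toFun x ∈ sphere (0 : Fin (n + 1) → ℝ) 1 ∧ Ψ.toFun x 0 ≤ 0) ∨
        (Ψ.toFun x ∈ closedBall (0 : Fin (n + 1) → ℝ) 1 ∧ Ψ.toFun x 0 = 0)) ↔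
        (x ∈ closedBall (0 : Fin (n + 1) → ℝ) 1 ∧ (∀ i ∈ I, x i ≤ 0) ∧
        (x ∈ sphere (0 : Fin (n + 1) → ℝ) 1 ∨ ∃ i ∈ I, 0 ≤ x i))
      rw [h1 x hx, ← h2 x hx, ← h3 x hx, le_antisymm_iff]
      have := Ψ.mapsTo hx
      tauto
    · intro x hx
      show (Ψ.toFun x ∈ closedBall (0 : Fin (n + 1) → ℝ) 1 ∧ Ψ.toFun x 0 ≤ 0) ↔
        (x ∈ closedBall (0 : Fin (n + 1) → ℝ) 1 ∧ ∀ i ∈ I, x i ≤ 0)
      rw [← h2 x hx]
      exact ⟨fun h => ⟨hx, h.2⟩, fun h => ⟨Ψ.mapsTo hx, h.2⟩⟩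
  · have h := (conBall_halfU n).image Ψ.symm inter_subset_left
    rw [ConHomeo.symm_toFun] at h
    rw [him {x | x ∈ closedBall (0 : Fin (n + 1) → ℝ) 1 ∧ ∃ i ∈ I, 0 ≤ x i}
        (halfU n) (fun x hx => hx.1) inter_subset_left,
      him {x | x ∈ closedBall (0 : Fin (n + 1) → ℝ) 1 ∧ (∃ i ∈ I, 0 ≤ x i) ∧
        (x ∈ sphere (0 : Fin (n + 1) → ℝ) 1 ∨ ∀ i ∈ I, x i ≤ 0)}
        (hemiU n ∪ eqDisc n) (fun x hx => hx.1)
        (union_subset (inter_subset_left.trans hs) inter_subset_left)] at h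
    · exact h
    · intro x hx
      show ((Ψ.toFun x ∈ sphere (0 : Fin (n + 1) → ℝ) 1 ∧ 0 ≤ Ψ.toFun x 0) ∨
        (Ψ.toFun x ∈ closedBall (0 : Fin (n + 1) → ℝ) 1 ∧ Ψ.toFun x 0 = 0)) ↔
        (x ∈ closedBall (0 : Fin (n + 1) → ℝ) 1 ∧ (∃ i ∈ I, 0 ≤ x i) ∧
        (x ∈ sphere (0 : Fin (n + 1) → ℝ) 1 ∨ ∀ i ∈ I, x i ≤ 0))
      rw [h1 x hx, ← h2 x hx, ← h3 x hx, le_antisymm_iff]
      have := Ψ.mapsTo hx
      tauto
    · intro x hx
      show (Ψ.toFun x ∈ closedBall (0 : Fin (n + 1) → ℝ) 1 ∧ 0 ≤ Ψ.toFun x 0) ↔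
        (x ∈ closedBall (0 : Fin (n + 1) → ℝ) 1 ∧ ∃ i ∈ I, 0 ≤ x i)
      rw [← h3 x hx]
      exact ⟨fun h => ⟨hx, h.2⟩, fun h => ⟨Ψ.mapsTo hx, h.2⟩⟩

end P073
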