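import Vale.Agent.P073.GB371.Base

/-!
# P073, GB371: straightening corners.  `exists_theta`: a norm preserving conical homeomorphism of the
square which opens the quadrant `x 0 ≤ 0, x 1 ≤ 0` to the half square `x 0 ≤ 0`.
`exists_straighten`: in the cube `[-1,1]^n`, the clipped cube `{x | ∀ i ∈ I, x i ≤ 0}` becomes the
half cube `{x | x 0 ≤ 0}`.
-/

open Set Metric Topology Filter

namespace P073

/-- the surface of the square, cut at two points by open sets -/
theorem sphere2_split {p q : Fin 2 → ℝ} (hpq : p ≠ q) (hp : p ∈ sphere (0 : Fin 2 → ℝ) 1)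
    (hq : q ∈ sphere (0 : Fin 2 → ℝ) 1) {P Q : Set (Fin 2 → ℝ)} (hP : IsOpen P) (hQ : IsOpen Q)
    (hcov : ∀ x ∈ sphere (0 : Fin 2 → ℝ) 1, x = p ∨ x = q ∨ x ∈ P ∨ x ∈ Q)
    (hdis : ∀ x ∈ P, x ∉ Q) (hpP : p ∉ P) (hqP : q ∉ P) (hpQ : p ∉ Q) (hqQ : q ∉ Q)
    (hPn : (sphere (0 : Fin 2 → ℝ) 1 ∩ P).Nonempty) (hQn : (sphere (0 : Fin 2 → ℝ) 1 ∩ Q).Nonempty) :
    ConBall 1 (sphere 0 1 ∩ Qᶜ) {p, q} ∧ ConBall 1 (sphere 0 1 ∩ Pᶜ) {p, q} := by
  have hS : ConSphere 1 (sphere (0 : Fin 2 → ℝ) 1) := ⟨ConHomeo.refl (conicalSet_sphere_pi 2)⟩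
  have hsub : ({p, q} : Set (Fin 2 → ℝ)) ⊆ sphere 0 1 := by
    rintro x (rfl | rfl)
    · exact hp
    · exact hq
  have hn : ∀ x, x ∉ ({p, q} : Set (Fin 2 → ℝ)) ↔ x ≠ p ∧ x ≠ q := fun x => by
    rw [mem_insert_iff, mem_singleton_iff, not_or]
  obtain ⟨h1, h2⟩ := split_gen (jordanSch_one hS) hsub (conSphere_pair hpq) hP hQ
    (by
      rintro x ⟨hx, hx'⟩
      rw [hn] at hx'
      rcases hcov x hx with h | h | h | h
      · exact absurd h hx'.1
      · exact absurd h hx'.2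
      · exact Or.inl h
      · exact Or.inr h)
    (fun x _ h => hdis x h)
    (by
      obtain ⟨x, hx, hxP⟩ := hPn
      refine ⟨x, ⟨hx, (hn x).2 ⟨?_, ?_⟩⟩, hxP⟩
      · rintro rfl; exact hpP hxP
      · rintro rfl; exact hqP hxP)
    (by
      obtain ⟨x, hx, hxQ⟩ := hQn
      refine ⟨x, ⟨hx, (hn x).2 ⟨?_, ?_⟩⟩, hxQ⟩
      · rintro rfl; exact hpQ hxQ
      · rintro rfl; exact hqQ hxQ)
  have e1 : (sphere (0 : Fin 2 → ℝ) 1 \ {p, q}) ∩ P ∪ {p, q} = sphere 0 1 ∩ Qᶜ := by
    ext x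
    constructor
    · rintro (⟨⟨hx, _⟩, h⟩ | h)
      · exact ⟨hx, hdis x h⟩
      · refine ⟨hsub h, ?_⟩
        rcases h with rfl | h
        · exact hpQ
        · rw [mem_singleton_iff.1 h]; exact hqQ
    · rintro ⟨hx, hxQ⟩
      rcases hcov x hx with h | h | h | h
      · exact Or.inr (Or.inl h)
      · exact Or.inr (Or.inr h)
      · by_cases hx' : x ∈ ({p, q} : Set (Fin 2 → ℝ))
        · exact Or.inr hx'
        · exact Or.inl ⟨⟨hx, hx'⟩, h⟩
      · exact absurd h hxQ
  have e2 : (sphere (0 : Fin 2 → ℝ) 1 \ {p, q}) ∩ Q ∪ {p, q} = sphere 0 1 ∩ Pᶜ := by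
    ext x
    constructor
    · rintro (⟨⟨hx, _⟩, h⟩ | h)
      · exact ⟨hx, fun h' => hdis x h' h⟩
      · refine ⟨hsub h, ?_⟩
        rcases h with rfl | h
        · exact hpP
        · rw [mem_singleton_iff.1 h]; exact hqP
    · rintro ⟨hx, hxP⟩
      rcases hcov x hx with h | h | h | h
      · exact Or.inr (Or.inl h)
      · exact Or.inr (Or.inr h)
      · exact absurd h hxP
      · by_cases hx' : x ∈ ({p, q} : Set (Fin 2 → ℝ))
        · exact Or.inr hx'
        · exact Or.inl ⟨⟨hx, hx'⟩, h⟩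
  rw [e1] at h1
  rw [e2] at h2
  exact ⟨h1, h2⟩

theorem sphere2_iff (v : Fin 2 → ℝ) : v ∈ sphere (0 : Fin 2 → ℝ) 1 ↔
    (|v 0| ≤ 1 ∧ |v 1| ≤ 1) ∧ (|v 0| = 1 ∨ |v 1| = 1) := by
  rw [mem_sphere_pi']
  simp only [Fin.forall_fin_two, Fin.exists_fin_two]

/-- **Opening a quadrant.** -/
theorem exists_theta : ∃ Θ : ConHomeo (closedBall (0 : Fin 2 → ℝ) 1) (closedBall (0 : Fin 2 → ℝ) 1),
    (∀ x ∈ closedBall (0 : Fin 2 → ℝ) 1, ‖Θ.toFun x‖ = ‖x‖) ∧
    (∀ x ∈ closedBall (0 : Fin 2 → ℝ) 1, (Θ.toFun x 0 ≤ 0 ↔ x 0 ≤ 0 ∧ x 1 ≤ 0)) ∧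
    (∀ x ∈ closedBall (0 : Fin 2 → ℝ) 1, (0 ≤ Θ.toFun x 0 ↔ 0 ≤ x 0 ∨ 0 ≤ x 1)) := by
  -- the points
  let p : Fin 2 → ℝ := ![0, -1]
  let q : Fin 2 → ℝ := ![-1, 0]
  let p' : Fin 2 → ℝ := ![0, 1]
  have cont0 : Continuous fun x : Fin 2 → ℝ => x 0 := continuous_apply 0
  have cont1 : Continuous fun x : Fin 2 → ℝ => x 1 := continuous_apply 1
  -- the first pair of arcs
  obtain ⟨hA, hB⟩ := sphere2_split (p := p) (q := q)
    (by intro h; have := congrFun h 0; simp [p, q] at this)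
    ((sphere2_iff _).2 (by simp [p])) ((sphere2_iff _).2 (by simp [q]))
    (P := {x | x 0 < 0 ∧ x 1 < 0}) (Q := {x | 0 < x 0 ∨ 0 < x 1})
    ((isOpen_lt cont0 continuous_const).inter (isOpen_lt cont1 continuous_const))
    ((isOpen_lt continuous_const cont0).union (isOpen_lt continuous_const cont1))
    (by
      intro x hx
      rw [sphere2_iff] at hx
      by_cases h1 : 0 < x 0 ∨ 0 < x 1
      · exact Or.inr (Or.inr (Or.inr h1))
      push Not at h1
      by_cases h2 : x 0 < 0 ∧ x 1 < 0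
      · exact Or.inr (Or.inr (Or.inl h2))
      rcases eq_or_lt_of_le h1.1 with h3 | h3
      · left
        have h4 : |x 1| = 1 := by
          rcases hx.2 with h | h
          · rw [h3] at h; norm_num at h
          · exact h
        rw [abs_of_nonpos h1.2] at h4
        funext i
        fin_cases i
        · exact h3
        · show x 1 = -1
          linarith
      · rcases eq_or_lt_of_le h1.2 with h5 | h5
        · right; left
          have h4 : |x 0| = 1 := by
            rcases hx.2 with h | h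
            · exact h
            · rw [h5] at h; norm_num at h
          rw [abs_of_nonpos h1.1] at h4
          funext i
          fin_cases i
          · show x 0 = -1
            linarith
          · exact h5
        · exact absurd ⟨h3, h5⟩ h2)
    (by
      rintro x ⟨h1, h2⟩ (h | h)
      · exact lt_asymm h h1
      · exact lt_asymm h h2)
    (by simp [p]) (by simp [q]) (by simp [p]) (by simp [q])
    ⟨![-1, -1], (sphere2_iff _).2 (by simp), by simp⟩
    ⟨![1, 1], (sphere2_iff _).2 (by simp), by simp⟩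
  obtain ⟨hA', hB'⟩ := sphere2_split (p := p) (q := p')
    (by intro h; have := congrFun h 1; simp [p, p'] at this; norm_num at this)
    ((sphere2_iff _).2 (by simp [p])) ((sphere2_iff _).2 (by simp [p']))
    (P := {x | x 0 < 0}) (Q := {x | 0 < x 0})
    (isOpen_lt cont0 continuous_const) (isOpen_lt continuous_const cont0)
    (by
      intro x hx
      rw [sphere2_iff] at hx
      rcases lt_trichotomy (x 0) 0 with h | h | h
      · exact Or.inr (Or.inr (Or.inl h))
      · have h4 : |x 1| = 1 := by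
          rcases hx.2 with h' | h'
          · rw [h] at h'; norm_num at h'
          · exact h'
        rcases eq_or_eq_neg_of_abs_eq h4 with h5 | h5
        · right; left
          funext i
          fin_cases i
          · exact h
          · exact h5
        · left
          funext i
          fin_cases i
          · exact h
          · exact h5
      · exact Or.inr (Or.inr (Or.inr h)))
    (fun x h1 h2 => lt_asymm (show x 0 < 0 from h1) h2)
    (by simp [p]) (by simp [p']) (by simp [p]) (by simp [p'])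
    ⟨![-1, -1], (sphere2_iff _).2 (by simp), by simp⟩
    ⟨![1, 1], (sphere2_iff _).2 (by simp), by simp⟩
  have hAB : (sphere (0 : Fin 2 → ℝ) 1 ∩ {x | 0 < x 0 ∨ 0 < x 1}ᶜ) ∩
      (sphere 0 1 ∩ {x | x 0 < 0 ∧ x 1 < 0}ᶜ) = {p, q} := by
    ext x
    constructor
    · rintro ⟨⟨hx, h1⟩, _, h2⟩
      rw [sphere2_iff] at hx
      simp only [mem_compl_iff, mem_ofPred_eq, not_or, not_and, not_lt] at h1 h2
      rcases eq_or_lt_of_le h1.1 with h3 | h3
      · left
        have h4 : |x 1| = 1 := by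
          rcases hx.2 with h | h
          · rw [h3] at h; norm_num at h
          · exact h
        rw [abs_of_nonpos h1.2] at h4
        funext i
        fin_cases i
        · exact h3
        · show x 1 = -1
          linarith
      · right
        have h5 : x 1 = 0 := le_antisymm h1.2 (h2 h3)
        have h4 : |x 0| = 1 := by
          rcases hx.2 with h | h
          · exact h
          · rw [h5] at h; norm_num at h
        rw [abs_of_nonpos h1.1] at h4
        rw [mem_singleton_iff]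
        funext i
        fin_cases i
        · show x 0 = -1
          linarith
        · exact h5
    · rintro (rfl | h)
      · refine ⟨⟨(sphere2_iff _).2 (by simp [p]), by simp [p]⟩,
          (sphere2_iff _).2 (by simp [p]), by simp [p]⟩
      · rw [mem_singleton_iff.1 h]
        refine ⟨⟨(sphere2_iff _).2 (by simp [q]), by simp [q]⟩,
          (sphere2_iff _).2 (by simp [q]), by simp [q]⟩
  have hAB' : (sphere (0 : Fin 2 → ℝ) 1 ∩ {x | 0 < x 0}ᶜ) ∩
      (sphere 0 1 ∩ {x | x 0 < 0}ᶜ) = {p, p'} := by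
    ext x
    constructor
    · rintro ⟨⟨hx, h1⟩, _, h2⟩
      rw [sphere2_iff] at hx
      simp only [mem_compl_iff, mem_ofPred_eq, not_lt] at h1 h2
      have h : x 0 = 0 := le_antisymm h1 h2
      have h4 : |x 1| = 1 := by
        rcases hx.2 with h' | h'
        · rw [h] at h'; norm_num at h'
        · exact h'
      rcases eq_or_eq_neg_of_abs_eq h4 with h5 | h5
      · right
        rw [mem_singleton_iff]
        funext i
        fin_cases i
        · exact h
        · exact h5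
      · left
        funext i
        fin_cases i
        · exact h
        · exact h5
    · rintro (rfl | h)
      · refine ⟨⟨(sphere2_iff _).2 (by simp [p]), by simp [p]⟩,
          (sphere2_iff _).2 (by simp [p]), by simp [p]⟩
      · rw [mem_singleton_iff.1 h]
        refine ⟨⟨(sphere2_iff _).2 (by simp [p']), by simp [p']⟩,
          (sphere2_iff _).2 (by simp [p']), by simp [p']⟩
  obtain ⟨α⟩ := hA.conSphere
  obtain ⟨β⟩ := hA'.conSphere
  obtain ⟨Φ, -, hΦA, hΦB⟩ := exists_glue_balls hA hB hAB hA' hB' hAB' (α.trans β.symm)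
  have eU : (sphere (0 : Fin 2 → ℝ) 1 ∩ {x | 0 < x 0 ∨ 0 < x 1}ᶜ) ∪
      (sphere 0 1 ∩ {x | x 0 < 0 ∧ x 1 < 0}ᶜ) = sphere 0 1 := by
    ext x
    constructor
    · rintro (h | h)
      · exact h.1
      · exact h.1
    · intro hx
      by_cases h : 0 < x 0 ∨ 0 < x 1
      · right
        refine ⟨hx, ?_⟩
        rintro ⟨h1, h2⟩
        rcases h with h | h
        · exact lt_asymm h h1
        · exact lt_asymm h h2
      · exact Or.inl ⟨hx, h⟩
  have eU' : (sphere (0 : Fin 2 → ℝ) 1 ∩ {x | 0 < x 0}ᶜ) ∪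
      (sphere 0 1 ∩ {x | x 0 < 0}ᶜ) = sphere 0 1 := by
    ext x
    constructor
    · rintro (h | h)
      · exact h.1
      · exact h.1
    · intro hx
      by_cases h : 0 < x 0
      · right
        exact ⟨hx, fun h1 => lt_asymm h h1⟩
      · exact Or.inl ⟨hx, h⟩
  let Φ' : ConHomeo (sphere (0 : Fin 2 → ℝ) 1) (sphere (0 : Fin 2 → ℝ) 1) := Φ.cast eU eU'
  have hmA : ∀ x ∈ sphere (0 : Fin 2 → ℝ) 1, (Φ'.toFun x 0 ≤ 0 ↔ x 0 ≤ 0 ∧ x 1 ≤ 0) := by
    intro x hx
    have h1 : Φ'.toFun x ∈ sphere (0 : Fin 2 → ℝ) 1 := Φ'.mapsTo hx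
    constructor
    · intro h
      have h2 : Φ'.toFun x ∈ Φ.toFun '' (sphere 0 1 ∩ {x | 0 < x 0 ∨ 0 < x 1}ᶜ) := by
        rw [hΦA]; exact ⟨h1, fun h' => absurd h (not_le.2 h')⟩
      obtain ⟨y, hy, hyx⟩ := h2
      have h3 : y = x := Φ'.injOn hy.1 hx hyx
      rw [← h3]
      have := hy.2
      simp only [mem_compl_iff, mem_ofPred_eq, not_or, not_lt] at this
      exact this
    · intro h
      have h2 : Φ.toFun x ∈ Φ.toFun '' (sphere 0 1 ∩ {x | 0 < x 0 ∨ 0 < x 1}ᶜ) :=
        mem_image_of_mem _ ⟨hx, by simp only [mem_compl_iff, mem_ofPred_eq, not_or, not_lt]; exact h⟩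
      rw [hΦA] at h2
      have := h2.2
      simp only [mem_compl_iff, mem_ofPred_eq, not_lt] at this
      exact this
  have hmB : ∀ x ∈ sphere (0 : Fin 2 → ℝ) 1, (0 ≤ Φ'.toFun x 0 ↔ 0 ≤ x 0 ∨ 0 ≤ x 1) := by
    intro x hx
    have h1 : Φ'.toFun x ∈ sphere (0 : Fin 2 → ℝ) 1 := Φ'.mapsTo hx
    constructor
    · intro h
      have h2 : Φ'.toFun x ∈ Φ.toFun '' (sphere 0 1 ∩ {x | x 0 < 0 ∧ x 1 < 0}ᶜ) := by
        rw [hΦB]; exact ⟨h1, fun h' => absurd h (not_le.2 h')⟩
      obtain ⟨y, hy, hyx⟩ := h2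
      have h3 : y = x := Φ'.injOn hy.1 hx hyx
      rw [← h3]
      by_contra hcon
      push Not at hcon
      exact hy.2 hcon
    · intro h
      have h2 : Φ.toFun x ∈ Φ.toFun '' (sphere 0 1 ∩ {x | x 0 < 0 ∧ x 1 < 0}ᶜ) :=
        mem_image_of_mem _ ⟨hx, by
          rintro ⟨h3, h4⟩
          rcases h with h | h
          · exact absurd h (not_le.2 h3)
          · exact absurd h (not_le.2 h4)⟩
      rw [hΦB] at h2
      have := h2.2
      simp only [mem_compl_iff, mem_ofPred_eq, not_lt] at this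
      exact this
  let Θ := (ConHomeo.cone (rayBase_sphere_pi 2) (rayBase_sphere_pi 2) Φ').cast
      (coneSet_sphere_pi 2) (coneSet_sphere_pi 2)
  have key : ∀ x ∈ closedBall (0 : Fin 2 → ℝ) 1, ∃ s ∈ Icc (0:ℝ) 1, ∃ y ∈ sphere (0 : Fin 2 → ℝ) 1,
      x = s • y ∧ Θ.toFun x = s • Φ'.toFun y := by
    intro x hx
    rw [← coneSet_sphere_pi 2] at hx
    obtain ⟨s, hs, y, hy, rfl⟩ := hx
    exact ⟨s, hs, y, hy, rfl, ConHomeo.cone_smul _ _ Φ' hs hy⟩
  refine ⟨Θ, ?_, ?_, ?_⟩
  · intro x hx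
    obtain ⟨s, hs, y, hy, rfl, h⟩ := key x hx
    have h1 := Φ'.mapsTo hy
    rw [mem_sphere_zero_iff_norm] at hy h1
    rw [h, norm_smul, norm_smul, hy, h1]
  · intro x hx
    obtain ⟨s, hs, y, hy, rfl, h⟩ := key x hx
    rw [h]
    simp only [Pi.smul_apply, smul_eq_mul]
    rcases eq_or_lt_of_le hs.1 with h0 | h0
    · rw [← h0]; simp
    · have hsm : ∀ a : ℝ, s * a ≤ 0 ↔ a ≤ 0 := fun a => by
        constructor
        · intro h1
          by_contra h2
          push Not at h2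
          exact absurd h1 (not_le.2 (mul_pos h0 h2))
        · intro h1
          exact mul_nonpos_of_nonneg_of_nonpos h0.le h1
      rw [hsm, hsm, hsm]
      exact hmA y hy
  · intro x hx
    obtain ⟨s, hs, y, hy, rfl, h⟩ := key x hx
    rw [h]
    simp only [Pi.smul_apply, smul_eq_mul]
    rcases eq_or_lt_of_le hs.1 with h0 | h0
    · rw [← h0]; simp
    · rw [mul_nonneg_iff_of_pos_left h0, mul_nonneg_iff_of_pos_left h0,
        mul_nonneg_iff_of_pos_left h0]
      exact hmB y hy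

end P073
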